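import Vale.Agent.P154.Upgrade.Fast
import Vale.Agent.P154.Upgrade.Tab0
import Vale.Agent.P154.Upgrade.MapI0
import Vale.Agent.P154.Upgrade.MapR0

/-!
P154: the tables are valid.
-/

namespace Vale.Agent.P154.Upgrade

theorem lenR0_ok : okLen mapI0 mapR0 tab0 = true := by decide +kernel

theorem tab0_ok : tab0.ok = true := by
  simp only [Tab.ok, Bool.and_eq_true]
  refine ⟨⟨⟨⟨⟨⟨⟨?_, ?_⟩, ?_⟩, ?_⟩, ?_⟩, ?_⟩, ?_⟩, ?_⟩ <;> decide +kernel

theorem mapI0_ok : mapI0.ok tab0 tab0 (fun v => v) = true := by decide +kernel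

theorem mapR0_ok : (mapR0.ok tab0 tab0 t2 && mapR0.okCorner tab0) = true := by decide +kernel

end Vale.Agent.P154.Upgrade
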