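import Vale.Agent.P154.Upgrade.Fast
import Vale.Agent.P154.Upgrade.Tab0
import Vale.Agent.P154.Upgrade.Tab1
import Vale.Agent.P154.Upgrade.MapI0
import Vale.Agent.P154.Upgrade.MapX0

/-!
P154: the tables are valid.
-/

namespace Vale.Agent.P154.Upgrade

theorem lenX0_ok : okLen mapI0 mapX0 tab0 = true := by decide +kernel

theorem mapX0_ok : (mapX0.ok tab0 tab1 t2 && mapX0.okCorner tab1) = true := by decide +kernel

end Vale.Agent.P154.Upgrade
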