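import Vale.Agent.P154.Upgrade.Fast
import Vale.Agent.P154.Upgrade.ChecksX0
import Vale.Agent.P154.Upgrade.Tab1
import Vale.Agent.P154.Upgrade.MapI1
import Vale.Agent.P154.Upgrade.MapR1

/-!
P154: the tables are valid.
-/

namespace Vale.Agent.P154.Upgrade

theorem lenR1_ok : okLen mapI1 mapR1 tab1 = true := by decide +kernel

theorem tab1_ok : tab1.ok = true := by
  simp only [Tab.ok, Bool.and_eq_true]
  refine ⟨⟨⟨⟨⟨⟨⟨?_, ?_⟩, ?_⟩, ?_⟩, ?_⟩, ?_⟩, ?_⟩, ?_⟩ <;> decide +kernel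

theorem mapI1_ok : mapI1.ok tab1 tab1 (fun v => v) = true := by decide +kernel

theorem mapR1_ok : (mapR1.ok tab1 tab1 t2 && mapR1.okCorner tab1) = true := by decide +kernel

end Vale.Agent.P154.Upgrade
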