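import Vale.Agent.P154.Upgrade.Fast
import Vale.Agent.P154.Upgrade.Tab1
import Vale.Agent.P154.Upgrade.Tab2
import Vale.Agent.P154.Upgrade.MapI1
import Vale.Agent.P154.Upgrade.MapX1

/-!
P154: the tables are valid.
-/

namespace Vale.Agent.P154.Upgrade

theorem lenX1_ok : okLen mapI1 mapX1 tab1 = true := by decide +kernel

theorem mapX1_ok : (mapX1.ok tab1 tab2 t2 && mapX1.okCorner tab2) = true := by decide +kernel

end Vale.Agent.P154.Upgrade
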