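import Vale.Agent.P154.Upgrade.Fast
import Vale.Agent.P154.Upgrade.ChecksX1
import Vale.Agent.P154.Upgrade.Tab2
import Vale.Agent.P154.Upgrade.MapI2
import Vale.Agent.P154.Upgrade.MapR2

/-!
P154: the tables are valid.
-/

namespace Vale.Agent.P154.Upgrade

theorem lenR2_ok : okLen mapI2 mapR2 tab2 = true := by decide +kernel

theorem tab2_ok : tab2.ok = true := by
  simp only [Tab.ok, Bool.and_eq_true]
  refine ⟨⟨⟨⟨⟨⟨⟨?_, ?_⟩, ?_⟩, ?_⟩, ?_⟩, ?_⟩, ?_⟩, ?_⟩ <;> decide +kernel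

theorem mapI2_ok : mapI2.ok tab2 tab2 (fun v => v) = true := by decide +kernel

theorem mapR2_ok : (mapR2.ok tab2 tab2 t2 && mapR2.okCorner tab2) = true := by decide +kernel

end Vale.Agent.P154.Upgrade
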