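import Vale.Agent.P154.Upgrade.Fast
import Vale.Agent.P154.Upgrade.MapI0
import Vale.Agent.P154.Upgrade.MapR0
import Vale.Agent.P154.Upgrade.States0
import Vale.Agent.P154.Upgrade.Tab0

/-!
P154: levels of the computation.
-/

namespace Vale.Agent.P154.Upgrade

theorem start_eq : start mapR0 tab0 = some state0 := by decide +kernel

theorem levels0_eq :
    levelF mapI0 mapR0 tab0 tab0 state0 = some state1 ∧
    levelF mapI0 mapR0 tab0 tab0 state1 = some state2 ∧
    levelF mapI0 mapR0 tab0 tab0 state2 = some state3 ∧
    levelF mapI0 mapR0 tab0 tab0 state3 = some state4 ∧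
    levelF mapI0 mapR0 tab0 tab0 state4 = some state5 ∧
    levelF mapI0 mapR0 tab0 tab0 state5 = some state6 ∧
    levelF mapI0 mapR0 tab0 tab0 state6 = some state7 ∧
    levelF mapI0 mapR0 tab0 tab0 state7 = some state8 ∧
    levelF mapI0 mapR0 tab0 tab0 state8 = some state9 ∧
    levelF mapI0 mapR0 tab0 tab0 state9 = some state10 ∧
    levelF mapI0 mapR0 tab0 tab0 state10 = some state11 ∧
    levelF mapI0 mapR0 tab0 tab0 state11 = some state12 :=
  ⟨by decide +kernel, by decide +kernel, by decide +kernel, by decide +kernel,
    by decide +kernel, by decide +kernel, by decide +kernel, by decide +kernel,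
    by decide +kernel, by decide +kernel, by decide +kernel, by decide +kernel⟩

end Vale.Agent.P154.Upgrade
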