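import Vale.Agent.P154.Upgrade.Fast
import Vale.Agent.P154.Upgrade.MapI0
import Vale.Agent.P154.Upgrade.MapR0
import Vale.Agent.P154.Upgrade.States0
import Vale.Agent.P154.Upgrade.Tab0

/-!
P154: levels of the computation.
-/

namespace Vale.Agent.P154.Upgrade

theorem levels1_eq :
    levelF mapI0 mapR0 tab0 tab0 state12 = some state13 ∧
    levelF mapI0 mapR0 tab0 tab0 state13 = some state14 ∧
    levelF mapI0 mapR0 tab0 tab0 state14 = some state15 ∧
    levelF mapI0 mapR0 tab0 tab0 state15 = some state16 ∧
    levelF mapI0 mapR0 tab0 tab0 state16 = some state17 ∧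
    levelF mapI0 mapR0 tab0 tab0 state17 = some state18 ∧
    levelF mapI0 mapR0 tab0 tab0 state18 = some state19 ∧
    levelF mapI0 mapR0 tab0 tab0 state19 = some state20 ∧
    levelF mapI0 mapR0 tab0 tab0 state20 = some state21 ∧
    levelF mapI0 mapR0 tab0 tab0 state21 = some state22 ∧
    levelF mapI0 mapR0 tab0 tab0 state22 = some state23 ∧
    levelF mapI0 mapR0 tab0 tab0 state23 = some state24 :=
  ⟨by decide +kernel, by decide +kernel, by decide +kernel, by decide +kernel,
    by decide +kernel, by decide +kernel, by decide +kernel, by decide +kernel,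
    by decide +kernel, by decide +kernel, by decide +kernel, by decide +kernel⟩

end Vale.Agent.P154.Upgrade
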