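import Vale.Agent.P154.Upgrade.Fast
import Vale.Agent.P154.Upgrade.MapI0
import Vale.Agent.P154.Upgrade.MapR0
import Vale.Agent.P154.Upgrade.States0
import Vale.Agent.P154.Upgrade.States1
import Vale.Agent.P154.Upgrade.Tab0

/-!
P154: levels of the computation.
-/

namespace Vale.Agent.P154.Upgrade

theorem levels2_eq :
    levelF mapI0 mapR0 tab0 tab0 state24 = some state25 ∧
    levelF mapI0 mapR0 tab0 tab0 state25 = some state26 ∧
    levelF mapI0 mapR0 tab0 tab0 state26 = some state27 ∧
    levelF mapI0 mapR0 tab0 tab0 state27 = some state28 ∧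
    levelF mapI0 mapR0 tab0 tab0 state28 = some state29 ∧
    levelF mapI0 mapR0 tab0 tab0 state29 = some state30 ∧
    levelF mapI0 mapR0 tab0 tab0 state30 = some state31 ∧
    levelF mapI0 mapR0 tab0 tab0 state31 = some state32 ∧
    levelF mapI0 mapR0 tab0 tab0 state32 = some state33 ∧
    levelF mapI0 mapR0 tab0 tab0 state33 = some state34 ∧
    levelF mapI0 mapR0 tab0 tab0 state34 = some state35 ∧
    levelF mapI0 mapR0 tab0 tab0 state35 = some state36 :=
  ⟨by decide +kernel, by decide +kernel, by decide +kernel, by decide +kernel,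
    by decide +kernel, by decide +kernel, by decide +kernel, by decide +kernel,
    by decide +kernel, by decide +kernel, by decide +kernel, by decide +kernel⟩

end Vale.Agent.P154.Upgrade
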