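import Vale.Agent.P154.Upgrade.Fast
import Vale.Agent.P154.Upgrade.Levels2
import Vale.Agent.P154.Upgrade.MapI0
import Vale.Agent.P154.Upgrade.MapR0
import Vale.Agent.P154.Upgrade.States2
import Vale.Agent.P154.Upgrade.Tab0

/-!
P154: levels of the computation.
-/

namespace Vale.Agent.P154.Upgrade

theorem levels6_eq :
    levelF mapI0 mapR0 tab0 tab0 state72 = some state73 ∧
    levelF mapI0 mapR0 tab0 tab0 state73 = some state74 ∧
    levelF mapI0 mapR0 tab0 tab0 state74 = some state75 ∧
    levelF mapI0 mapR0 tab0 tab0 state75 = some state76 ∧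
    levelF mapI0 mapR0 tab0 tab0 state76 = some state77 ∧
    levelF mapI0 mapR0 tab0 tab0 state77 = some state78 ∧
    levelF mapI0 mapR0 tab0 tab0 state78 = some state79 ∧
    levelF mapI0 mapR0 tab0 tab0 state79 = some state80 ∧
    levelF mapI0 mapR0 tab0 tab0 state80 = some state81 ∧
    levelF mapI0 mapR0 tab0 tab0 state81 = some state82 ∧
    levelF mapI0 mapR0 tab0 tab0 state82 = some state83 ∧
    levelF mapI0 mapR0 tab0 tab0 state83 = some state84 :=
  ⟨by decide +kernel, by decide +kernel, by decide +kernel, by decide +kernel,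
    by decide +kernel, by decide +kernel, by decide +kernel, by decide +kernel,
    by decide +kernel, by decide +kernel, by decide +kernel, by decide +kernel⟩

end Vale.Agent.P154.Upgrade
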