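import Vale.Agent.P154.Upgrade.Fast
import Vale.Agent.P154.Upgrade.Levels6
import Vale.Agent.P154.Upgrade.MapI1
import Vale.Agent.P154.Upgrade.MapI2
import Vale.Agent.P154.Upgrade.MapR1
import Vale.Agent.P154.Upgrade.MapR2
import Vale.Agent.P154.Upgrade.MapX1
import Vale.Agent.P154.Upgrade.States4
import Vale.Agent.P154.Upgrade.Tab1
import Vale.Agent.P154.Upgrade.Tab2

/-!
P154: levels of the computation.
-/

namespace Vale.Agent.P154.Upgrade

theorem levels10_eq :
    levelF mapI1 mapR1 tab1 tab1 state120 = some state121 ∧
    levelF mapI1 mapR1 tab1 tab1 state121 = some state122 ∧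
    levelF mapI1 mapR1 tab1 tab1 state122 = some state123 ∧
    levelF mapI1 mapR1 tab1 tab1 state123 = some state124 ∧
    levelF mapI1 mapR1 tab1 tab1 state124 = some state125 ∧
    levelF mapI1 mapR1 tab1 tab1 state125 = some state126 ∧
    levelF mapI1 mapR1 tab1 tab1 state126 = some state127 ∧
    levelF mapI1 mapX1 tab1 tab2 state127 = some state128 ∧
    levelF mapI2 mapR2 tab2 tab2 state128 = some state129 ∧
    levelF mapI2 mapR2 tab2 tab2 state129 = some state130 ∧
    levelF mapI2 mapR2 tab2 tab2 state130 = some state131 ∧
    levelF mapI2 mapR2 tab2 tab2 state131 = some state132 :=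
  ⟨by decide +kernel, by decide +kernel, by decide +kernel, by decide +kernel,
    by decide +kernel, by decide +kernel, by decide +kernel, by decide +kernel,
    by decide +kernel, by decide +kernel, by decide +kernel, by decide +kernel⟩

end Vale.Agent.P154.Upgrade
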