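import Vale.Agent.P154.Upgrade.Fast
import Vale.Agent.P154.Upgrade.MapI0
import Vale.Agent.P154.Upgrade.MapR0
import Vale.Agent.P154.Upgrade.States1
import Vale.Agent.P154.Upgrade.Tab0

/-!
P154: levels of the computation.
-/

namespace Vale.Agent.P154.Upgrade

theorem levels3_eq :
    levelF mapI0 mapR0 tab0 tab0 state36 = some state37 ∧
    levelF mapI0 mapR0 tab0 tab0 state37 = some state38 ∧
    levelF mapI0 mapR0 tab0 tab0 state38 = some state39 ∧
    levelF mapI0 mapR0 tab0 tab0 state39 = some state40 ∧
    levelF mapI0 mapR0 tab0 tab0 state40 = some state41 ∧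
    levelF mapI0 mapR0 tab0 tab0 state41 = some state42 ∧
    levelF mapI0 mapR0 tab0 tab0 state42 = some state43 ∧
    levelF mapI0 mapR0 tab0 tab0 state43 = some state44 ∧
    levelF mapI0 mapR0 tab0 tab0 state44 = some state45 ∧
    levelF mapI0 mapR0 tab0 tab0 state45 = some state46 ∧
    levelF mapI0 mapR0 tab0 tab0 state46 = some state47 ∧
    levelF mapI0 mapR0 tab0 tab0 state47 = some state48 :=
  ⟨by decide +kernel, by decide +kernel, by decide +kernel, by decide +kernel,
    by decide +kernel, by decide +kernel, by decide +kernel, by decide +kernel,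
    by decide +kernel, by decide +kernel, by decide +kernel, by decide +kernel⟩

end Vale.Agent.P154.Upgrade
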