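import Vale.Agent.P154.Upgrade.Fast
import Vale.Agent.P154.Upgrade.Levels0
import Vale.Agent.P154.Upgrade.MapI0
import Vale.Agent.P154.Upgrade.MapR0
import Vale.Agent.P154.Upgrade.States1
import Vale.Agent.P154.Upgrade.States2
import Vale.Agent.P154.Upgrade.Tab0

/-!
P154: levels of the computation.
-/

namespace Vale.Agent.P154.Upgrade

theorem levels4_eq :
    levelF mapI0 mapR0 tab0 tab0 state48 = some state49 ∧
    levelF mapI0 mapR0 tab0 tab0 state49 = some state50 ∧
    levelF mapI0 mapR0 tab0 tab0 state50 = some state51 ∧
    levelF mapI0 mapR0 tab0 tab0 state51 = some state52 ∧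
    levelF mapI0 mapR0 tab0 tab0 state52 = some state53 ∧
    levelF mapI0 mapR0 tab0 tab0 state53 = some state54 ∧
    levelF mapI0 mapR0 tab0 tab0 state54 = some state55 ∧
    levelF mapI0 mapR0 tab0 tab0 state55 = some state56 ∧
    levelF mapI0 mapR0 tab0 tab0 state56 = some state57 ∧
    levelF mapI0 mapR0 tab0 tab0 state57 = some state58 ∧
    levelF mapI0 mapR0 tab0 tab0 state58 = some state59 ∧
    levelF mapI0 mapR0 tab0 tab0 state59 = some state60 :=
  ⟨by decide +kernel, by decide +kernel, by decide +kernel, by decide +kernel,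
    by decide +kernel, by decide +kernel, by decide +kernel, by decide +kernel,
    by decide +kernel, by decide +kernel, by decide +kernel, by decide +kernel⟩

end Vale.Agent.P154.Upgrade
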