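import Vale.Agent.P154.Upgrade.Fast
import Vale.Agent.P154.Upgrade.Levels1
import Vale.Agent.P154.Upgrade.MapI0
import Vale.Agent.P154.Upgrade.MapR0
import Vale.Agent.P154.Upgrade.States2
import Vale.Agent.P154.Upgrade.Tab0

/-!
P154: levels of the computation.
-/

namespace Vale.Agent.P154.Upgrade

theorem levels5_eq :
    levelF mapI0 mapR0 tab0 tab0 state60 = some state61 ∧
    levelF mapI0 mapR0 tab0 tab0 state61 = some state62 ∧
    levelF mapI0 mapR0 tab0 tab0 state62 = some state63 ∧
    levelF mapI0 mapR0 tab0 tab0 state63 = some state64 ∧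
    levelF mapI0 mapR0 tab0 tab0 state64 = some state65 ∧
    levelF mapI0 mapR0 tab0 tab0 state65 = some state66 ∧
    levelF mapI0 mapR0 tab0 tab0 state66 = some state67 ∧
    levelF mapI0 mapR0 tab0 tab0 state67 = some state68 ∧
    levelF mapI0 mapR0 tab0 tab0 state68 = some state69 ∧
    levelF mapI0 mapR0 tab0 tab0 state69 = some state70 ∧
    levelF mapI0 mapR0 tab0 tab0 state70 = some state71 ∧
    levelF mapI0 mapR0 tab0 tab0 state71 = some state72 :=
  ⟨by decide +kernel, by decide +kernel, by decide +kernel, by decide +kernel,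
    by decide +kernel, by decide +kernel, by decide +kernel, by decide +kernel,
    by decide +kernel, by decide +kernel, by decide +kernel, by decide +kernel⟩

end Vale.Agent.P154.Upgrade
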