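import Vale.Agent.P154.Upgrade.Fast
import Vale.Agent.P154.Upgrade.Levels3
import Vale.Agent.P154.Upgrade.MapI0
import Vale.Agent.P154.Upgrade.MapR0
import Vale.Agent.P154.Upgrade.States2
import Vale.Agent.P154.Upgrade.States3
import Vale.Agent.P154.Upgrade.Tab0

/-!
P154: levels of the computation.
-/

namespace Vale.Agent.P154.Upgrade

theorem levels7_eq :
    levelF mapI0 mapR0 tab0 tab0 state84 = some state85 ∧
    levelF mapI0 mapR0 tab0 tab0 state85 = some state86 ∧
    levelF mapI0 mapR0 tab0 tab0 state86 = some state87 ∧
    levelF mapI0 mapR0 tab0 tab0 state87 = some state88 ∧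
    levelF mapI0 mapR0 tab0 tab0 state88 = some state89 ∧
    levelF mapI0 mapR0 tab0 tab0 state89 = some state90 ∧
    levelF mapI0 mapR0 tab0 tab0 state90 = some state91 ∧
    levelF mapI0 mapR0 tab0 tab0 state91 = some state92 ∧
    levelF mapI0 mapR0 tab0 tab0 state92 = some state93 ∧
    levelF mapI0 mapR0 tab0 tab0 state93 = some state94 ∧
    levelF mapI0 mapR0 tab0 tab0 state94 = some state95 ∧
    levelF mapI0 mapR0 tab0 tab0 state95 = some state96 :=
  ⟨by decide +kernel, by decide +kernel, by decide +kernel, by decide +kernel,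
    by decide +kernel, by decide +kernel, by decide +kernel, by decide +kernel,
    by decide +kernel, by decide +kernel, by decide +kernel, by decide +kernel⟩

end Vale.Agent.P154.Upgrade
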