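import Vale.Agent.P154.Upgrade.Fast
import Vale.Agent.P154.Upgrade.Levels4
import Vale.Agent.P154.Upgrade.MapI0
import Vale.Agent.P154.Upgrade.MapR0
import Vale.Agent.P154.Upgrade.States3
import Vale.Agent.P154.Upgrade.Tab0

/-!
P154: levels of the computation.
-/

namespace Vale.Agent.P154.Upgrade

theorem levels8_eq :
    levelF mapI0 mapR0 tab0 tab0 state96 = some state97 ∧
    levelF mapI0 mapR0 tab0 tab0 state97 = some state98 ∧
    levelF mapI0 mapR0 tab0 tab0 state98 = some state99 ∧
    levelF mapI0 mapR0 tab0 tab0 state99 = some state100 ∧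
    levelF mapI0 mapR0 tab0 tab0 state100 = some state101 ∧
    levelF mapI0 mapR0 tab0 tab0 state101 = some state102 ∧
    levelF mapI0 mapR0 tab0 tab0 state102 = some state103 ∧
    levelF mapI0 mapR0 tab0 tab0 state103 = some state104 ∧
    levelF mapI0 mapR0 tab0 tab0 state104 = some state105 ∧
    levelF mapI0 mapR0 tab0 tab0 state105 = some state106 ∧
    levelF mapI0 mapR0 tab0 tab0 state106 = some state107 ∧
    levelF mapI0 mapR0 tab0 tab0 state107 = some state108 :=
  ⟨by decide +kernel, by decide +kernel, by decide +kernel, by decide +kernel,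
    by decide +kernel, by decide +kernel, by decide +kernel, by decide +kernel,
    by decide +kernel, by decide +kernel, by decide +kernel, by decide +kernel⟩

end Vale.Agent.P154.Upgrade
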