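import Vale.Agent.P154.Upgrade.Fast
import Vale.Agent.P154.Upgrade.Levels5
import Vale.Agent.P154.Upgrade.MapI0
import Vale.Agent.P154.Upgrade.MapI1
import Vale.Agent.P154.Upgrade.MapR1
import Vale.Agent.P154.Upgrade.MapX0
import Vale.Agent.P154.Upgrade.States3
import Vale.Agent.P154.Upgrade.States4
import Vale.Agent.P154.Upgrade.Tab0
import Vale.Agent.P154.Upgrade.Tab1

/-!
P154: levels of the computation.
-/

namespace Vale.Agent.P154.Upgrade

theorem levels9_eq :
    levelF mapI0 mapX0 tab0 tab1 state108 = some state109 ∧
    levelF mapI1 mapR1 tab1 tab1 state109 = some state110 ∧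
    levelF mapI1 mapR1 tab1 tab1 state110 = some state111 ∧
    levelF mapI1 mapR1 tab1 tab1 state111 = some state112 ∧
    levelF mapI1 mapR1 tab1 tab1 state112 = some state113 ∧
    levelF mapI1 mapR1 tab1 tab1 state113 = some state114 ∧
    levelF mapI1 mapR1 tab1 tab1 state114 = some state115 ∧
    levelF mapI1 mapR1 tab1 tab1 state115 = some state116 ∧
    levelF mapI1 mapR1 tab1 tab1 state116 = some state117 ∧
    levelF mapI1 mapR1 tab1 tab1 state117 = some state118 ∧
    levelF mapI1 mapR1 tab1 tab1 state118 = some state119 ∧
    levelF mapI1 mapR1 tab1 tab1 state119 = some state120 :=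
  ⟨by decide +kernel, by decide +kernel, by decide +kernel, by decide +kernel,
    by decide +kernel, by decide +kernel, by decide +kernel, by decide +kernel,
    by decide +kernel, by decide +kernel, by decide +kernel, by decide +kernel⟩

end Vale.Agent.P154.Upgrade
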