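import Vale.Agent.P154.Upgrade.Value
import Vale.Agent.P154.Upgrade.Levels0
import Vale.Agent.P154.Upgrade.Levels1
import Vale.Agent.P154.Upgrade.Levels2
import Vale.Agent.P154.Upgrade.Levels3
import Vale.Agent.P154.Upgrade.Levels4
import Vale.Agent.P154.Upgrade.Levels5
import Vale.Agent.P154.Upgrade.Levels6
import Vale.Agent.P154.Upgrade.Levels7
import Vale.Agent.P154.Upgrade.Levels8
import Vale.Agent.P154.Upgrade.Levels9
import Vale.Agent.P154.Upgrade.Levels10
import Vale.Agent.P154.Upgrade.Levels11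
import Vale.Agent.P154.Upgrade.Checks0
import Vale.Agent.P154.Upgrade.Checks1
import Vale.Agent.P154.Upgrade.Checks2
import Vale.Agent.P154.Upgrade.ChecksX0
import Vale.Agent.P154.Upgrade.ChecksX1

/-!
P154: the chain of levels.
-/

namespace Vale.Agent.P154.Upgrade

lemma okR0 : okLevel mapI0 mapR0 tab0 tab0 = true := by
  simp only [okLevel, Bool.and_eq_true]
  exact ⟨⟨⟨tab0_ok, mapI0_ok⟩, ((Bool.and_eq_true _ _).mp mapR0_ok).1⟩,
    ((Bool.and_eq_true _ _).mp mapR0_ok).2⟩

lemma okR1 : okLevel mapI1 mapR1 tab1 tab1 = true := by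
  simp only [okLevel, Bool.and_eq_true]
  exact ⟨⟨⟨tab1_ok, mapI1_ok⟩, ((Bool.and_eq_true _ _).mp mapR1_ok).1⟩,
    ((Bool.and_eq_true _ _).mp mapR1_ok).2⟩

lemma okR2 : okLevel mapI2 mapR2 tab2 tab2 = true := by
  simp only [okLevel, Bool.and_eq_true]
  exact ⟨⟨⟨tab2_ok, mapI2_ok⟩, ((Bool.and_eq_true _ _).mp mapR2_ok).1⟩,
    ((Bool.and_eq_true _ _).mp mapR2_ok).2⟩

lemma okX0 : okLevel mapI0 mapX0 tab0 tab1 = true := by
  simp only [okLevel, Bool.and_eq_true]
  exact ⟨⟨⟨tab0_ok, mapI0_ok⟩, ((Bool.and_eq_true _ _).mp mapX0_ok).1⟩,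
    ((Bool.and_eq_true _ _).mp mapX0_ok).2⟩

lemma okX1 : okLevel mapI1 mapX1 tab1 tab2 = true := by
  simp only [okLevel, Bool.and_eq_true]
  exact ⟨⟨⟨tab1_ok, mapI1_ok⟩, ((Bool.and_eq_true _ _).mp mapX1_ok).1⟩,
    ((Bool.and_eq_true _ _).mp mapX1_ok).2⟩

variable {lam : ℝ}

lemma bound0 (h0 : -1 / 2 ≤ lam) (h1 : lam ≤ 0) : Bound lam tab0 state0 0 := by
  refine Bound.start h0 h1 (R := mapR0) ?_ start_eq
  simp only [Bool.and_eq_true]
  exact ⟨⟨tab0_ok, ((Bool.and_eq_true _ _).mp mapR0_ok).1⟩, ((Bool.and_eq_true _ _).mp mapR0_ok).2⟩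

lemma bound12 (h0 : -1 / 2 ≤ lam) (h1 : lam ≤ 0) : Bound lam tab0 state12 12 := by
  obtain ⟨e0, e1, e2, e3, e4, e5, e6, e7, e8, e9, e10, e11⟩ := levels0_eq
  have b0 := bound0 h0 h1
  have b1 := Bound.level h0 h1 okR0 (level_of_levelF tab0_ok lenR0_ok e0) b0
  have b2 := Bound.level h0 h1 okR0 (level_of_levelF tab0_ok lenR0_ok e1) b1
  have b3 := Bound.level h0 h1 okR0 (level_of_levelF tab0_ok lenR0_ok e2) b2
  have b4 := Bound.level h0 h1 okR0 (level_of_levelF tab0_ok lenR0_ok e3) b3
  have b5 := Bound.level h0 h1 okR0 (level_of_levelF tab0_ok lenR0_ok e4) b4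
  have b6 := Bound.level h0 h1 okR0 (level_of_levelF tab0_ok lenR0_ok e5) b5
  have b7 := Bound.level h0 h1 okR0 (level_of_levelF tab0_ok lenR0_ok e6) b6
  have b8 := Bound.level h0 h1 okR0 (level_of_levelF tab0_ok lenR0_ok e7) b7
  have b9 := Bound.level h0 h1 okR0 (level_of_levelF tab0_ok lenR0_ok e8) b8
  have b10 := Bound.level h0 h1 okR0 (level_of_levelF tab0_ok lenR0_ok e9) b9
  have b11 := Bound.level h0 h1 okR0 (level_of_levelF tab0_ok lenR0_ok e10) b10
  have b12 := Bound.level h0 h1 okR0 (level_of_levelF tab0_ok lenR0_ok e11) b11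
  exact b12

lemma bound24 (h0 : -1 / 2 ≤ lam) (h1 : lam ≤ 0) : Bound lam tab0 state24 24 := by
  obtain ⟨e12, e13, e14, e15, e16, e17, e18, e19, e20, e21, e22, e23⟩ := levels1_eq
  have b12 := bound12 h0 h1
  have b13 := Bound.level h0 h1 okR0 (level_of_levelF tab0_ok lenR0_ok e12) b12
  have b14 := Bound.level h0 h1 okR0 (level_of_levelF tab0_ok lenR0_ok e13) b13
  have b15 := Bound.level h0 h1 okR0 (level_of_levelF tab0_ok lenR0_ok e14) b14
  have b16 := Bound.level h0 h1 okR0 (level_of_levelF tab0_ok lenR0_ok e15) b15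
  have b17 := Bound.level h0 h1 okR0 (level_of_levelF tab0_ok lenR0_ok e16) b16
  have b18 := Bound.level h0 h1 okR0 (level_of_levelF tab0_ok lenR0_ok e17) b17
  have b19 := Bound.level h0 h1 okR0 (level_of_levelF tab0_ok lenR0_ok e18) b18
  have b20 := Bound.level h0 h1 okR0 (level_of_levelF tab0_ok lenR0_ok e19) b19
  have b21 := Bound.level h0 h1 okR0 (level_of_levelF tab0_ok lenR0_ok e20) b20
  have b22 := Bound.level h0 h1 okR0 (level_of_levelF tab0_ok lenR0_ok e21) b21
  have b23 := Bound.level h0 h1 okR0 (level_of_levelF tab0_ok lenR0_ok e22) b22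
  have b24 := Bound.level h0 h1 okR0 (level_of_levelF tab0_ok lenR0_ok e23) b23
  exact b24

lemma bound36 (h0 : -1 / 2 ≤ lam) (h1 : lam ≤ 0) : Bound lam tab0 state36 36 := by
  obtain ⟨e24, e25, e26, e27, e28, e29, e30, e31, e32, e33, e34, e35⟩ := levels2_eq
  have b24 := bound24 h0 h1
  have b25 := Bound.level h0 h1 okR0 (level_of_levelF tab0_ok lenR0_ok e24) b24
  have b26 := Bound.level h0 h1 okR0 (level_of_levelF tab0_ok lenR0_ok e25) b25
  have b27 := Bound.level h0 h1 okR0 (level_of_levelF tab0_ok lenR0_ok e26) b26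
  have b28 := Bound.level h0 h1 okR0 (level_of_levelF tab0_ok lenR0_ok e27) b27
  have b29 := Bound.level h0 h1 okR0 (level_of_levelF tab0_ok lenR0_ok e28) b28
  have b30 := Bound.level h0 h1 okR0 (level_of_levelF tab0_ok lenR0_ok e29) b29
  have b31 := Bound.level h0 h1 okR0 (level_of_levelF tab0_ok lenR0_ok e30) b30
  have b32 := Bound.level h0 h1 okR0 (level_of_levelF tab0_ok lenR0_ok e31) b31
  have b33 := Bound.level h0 h1 okR0 (level_of_levelF tab0_ok lenR0_ok e32) b32
  have b34 := Bound.level h0 h1 okR0 (level_of_levelF tab0_ok lenR0_ok e33) b33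
  have b35 := Bound.level h0 h1 okR0 (level_of_levelF tab0_ok lenR0_ok e34) b34
  have b36 := Bound.level h0 h1 okR0 (level_of_levelF tab0_ok lenR0_ok e35) b35
  exact b36

lemma bound48 (h0 : -1 / 2 ≤ lam) (h1 : lam ≤ 0) : Bound lam tab0 state48 48 := by
  obtain ⟨e36, e37, e38, e39, e40, e41, e42, e43, e44, e45, e46, e47⟩ := levels3_eq
  have b36 := bound36 h0 h1
  have b37 := Bound.level h0 h1 okR0 (level_of_levelF tab0_ok lenR0_ok e36) b36
  have b38 := Bound.level h0 h1 okR0 (level_of_levelF tab0_ok lenR0_ok e37) b37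
  have b39 := Bound.level h0 h1 okR0 (level_of_levelF tab0_ok lenR0_ok e38) b38
  have b40 := Bound.level h0 h1 okR0 (level_of_levelF tab0_ok lenR0_ok e39) b39
  have b41 := Bound.level h0 h1 okR0 (level_of_levelF tab0_ok lenR0_ok e40) b40
  have b42 := Bound.level h0 h1 okR0 (level_of_levelF tab0_ok lenR0_ok e41) b41
  have b43 := Bound.level h0 h1 okR0 (level_of_levelF tab0_ok lenR0_ok e42) b42
  have b44 := Bound.level h0 h1 okR0 (level_of_levelF tab0_ok lenR0_ok e43) b43
  have b45 := Bound.level h0 h1 okR0 (level_of_levelF tab0_ok lenR0_ok e44) b44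
  have b46 := Bound.level h0 h1 okR0 (level_of_levelF tab0_ok lenR0_ok e45) b45
  have b47 := Bound.level h0 h1 okR0 (level_of_levelF tab0_ok lenR0_ok e46) b46
  have b48 := Bound.level h0 h1 okR0 (level_of_levelF tab0_ok lenR0_ok e47) b47
  exact b48

lemma bound60 (h0 : -1 / 2 ≤ lam) (h1 : lam ≤ 0) : Bound lam tab0 state60 60 := by
  obtain ⟨e48, e49, e50, e51, e52, e53, e54, e55, e56, e57, e58, e59⟩ := levels4_eq
  have b48 := bound48 h0 h1
  have b49 := Bound.level h0 h1 okR0 (level_of_levelF tab0_ok lenR0_ok e48) b48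
  have b50 := Bound.level h0 h1 okR0 (level_of_levelF tab0_ok lenR0_ok e49) b49
  have b51 := Bound.level h0 h1 okR0 (level_of_levelF tab0_ok lenR0_ok e50) b50
  have b52 := Bound.level h0 h1 okR0 (level_of_levelF tab0_ok lenR0_ok e51) b51
  have b53 := Bound.level h0 h1 okR0 (level_of_levelF tab0_ok lenR0_ok e52) b52
  have b54 := Bound.level h0 h1 okR0 (level_of_levelF tab0_ok lenR0_ok e53) b53
  have b55 := Bound.level h0 h1 okR0 (level_of_levelF tab0_ok lenR0_ok e54) b54
  have b56 := Bound.level h0 h1 okR0 (level_of_levelF tab0_ok lenR0_ok e55) b55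
  have b57 := Bound.level h0 h1 okR0 (level_of_levelF tab0_ok lenR0_ok e56) b56
  have b58 := Bound.level h0 h1 okR0 (level_of_levelF tab0_ok lenR0_ok e57) b57
  have b59 := Bound.level h0 h1 okR0 (level_of_levelF tab0_ok lenR0_ok e58) b58
  have b60 := Bound.level h0 h1 okR0 (level_of_levelF tab0_ok lenR0_ok e59) b59
  exact b60

lemma bound72 (h0 : -1 / 2 ≤ lam) (h1 : lam ≤ 0) : Bound lam tab0 state72 72 := by
  obtain ⟨e60, e61, e62, e63, e64, e65, e66, e67, e68, e69, e70, e71⟩ := levels5_eq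
  have b60 := bound60 h0 h1
  have b61 := Bound.level h0 h1 okR0 (level_of_levelF tab0_ok lenR0_ok e60) b60
  have b62 := Bound.level h0 h1 okR0 (level_of_levelF tab0_ok lenR0_ok e61) b61
  have b63 := Bound.level h0 h1 okR0 (level_of_levelF tab0_ok lenR0_ok e62) b62
  have b64 := Bound.level h0 h1 okR0 (level_of_levelF tab0_ok lenR0_ok e63) b63
  have b65 := Bound.level h0 h1 okR0 (level_of_levelF tab0_ok lenR0_ok e64) b64
  have b66 := Bound.level h0 h1 okR0 (level_of_levelF tab0_ok lenR0_ok e65) b65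
  have b67 := Bound.level h0 h1 okR0 (level_of_levelF tab0_ok lenR0_ok e66) b66
  have b68 := Bound.level h0 h1 okR0 (level_of_levelF tab0_ok lenR0_ok e67) b67
  have b69 := Bound.level h0 h1 okR0 (level_of_levelF tab0_ok lenR0_ok e68) b68
  have b70 := Bound.level h0 h1 okR0 (level_of_levelF tab0_ok lenR0_ok e69) b69
  have b71 := Bound.level h0 h1 okR0 (level_of_levelF tab0_ok lenR0_ok e70) b70
  have b72 := Bound.level h0 h1 okR0 (level_of_levelF tab0_ok lenR0_ok e71) b71
  exact b72

lemma bound84 (h0 : -1 / 2 ≤ lam) (h1 : lam ≤ 0) : Bound lam tab0 state84 84 := by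
  obtain ⟨e72, e73, e74, e75, e76, e77, e78, e79, e80, e81, e82, e83⟩ := levels6_eq
  have b72 := bound72 h0 h1
  have b73 := Bound.level h0 h1 okR0 (level_of_levelF tab0_ok lenR0_ok e72) b72
  have b74 := Bound.level h0 h1 okR0 (level_of_levelF tab0_ok lenR0_ok e73) b73
  have b75 := Bound.level h0 h1 okR0 (level_of_levelF tab0_ok lenR0_ok e74) b74
  have b76 := Bound.level h0 h1 okR0 (level_of_levelF tab0_ok lenR0_ok e75) b75
  have b77 := Bound.level h0 h1 okR0 (level_of_levelF tab0_ok lenR0_ok e76) b76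
  have b78 := Bound.level h0 h1 okR0 (level_of_levelF tab0_ok lenR0_ok e77) b77
  have b79 := Bound.level h0 h1 okR0 (level_of_levelF tab0_ok lenR0_ok e78) b78
  have b80 := Bound.level h0 h1 okR0 (level_of_levelF tab0_ok lenR0_ok e79) b79
  have b81 := Bound.level h0 h1 okR0 (level_of_levelF tab0_ok lenR0_ok e80) b80
  have b82 := Bound.level h0 h1 okR0 (level_of_levelF tab0_ok lenR0_ok e81) b81
  have b83 := Bound.level h0 h1 okR0 (level_of_levelF tab0_ok lenR0_ok e82) b82
  have b84 := Bound.level h0 h1 okR0 (level_of_levelF tab0_ok lenR0_ok e83) b83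
  exact b84

lemma bound96 (h0 : -1 / 2 ≤ lam) (h1 : lam ≤ 0) : Bound lam tab0 state96 96 := by
  obtain ⟨e84, e85, e86, e87, e88, e89, e90, e91, e92, e93, e94, e95⟩ := levels7_eq
  have b84 := bound84 h0 h1
  have b85 := Bound.level h0 h1 okR0 (level_of_levelF tab0_ok lenR0_ok e84) b84
  have b86 := Bound.level h0 h1 okR0 (level_of_levelF tab0_ok lenR0_ok e85) b85
  have b87 := Bound.level h0 h1 okR0 (level_of_levelF tab0_ok lenR0_ok e86) b86
  have b88 := Bound.level h0 h1 okR0 (level_of_levelF tab0_ok lenR0_ok e87) b87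
  have b89 := Bound.level h0 h1 okR0 (level_of_levelF tab0_ok lenR0_ok e88) b88
  have b90 := Bound.level h0 h1 okR0 (level_of_levelF tab0_ok lenR0_ok e89) b89
  have b91 := Bound.level h0 h1 okR0 (level_of_levelF tab0_ok lenR0_ok e90) b90
  have b92 := Bound.level h0 h1 okR0 (level_of_levelF tab0_ok lenR0_ok e91) b91
  have b93 := Bound.level h0 h1 okR0 (level_of_levelF tab0_ok lenR0_ok e92) b92
  have b94 := Bound.level h0 h1 okR0 (level_of_levelF tab0_ok lenR0_ok e93) b93
  have b95 := Bound.level h0 h1 okR0 (level_of_levelF tab0_ok lenR0_ok e94) b94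
  have b96 := Bound.level h0 h1 okR0 (level_of_levelF tab0_ok lenR0_ok e95) b95
  exact b96

lemma bound108 (h0 : -1 / 2 ≤ lam) (h1 : lam ≤ 0) : Bound lam tab0 state108 108 := by
  obtain ⟨e96, e97, e98, e99, e100, e101, e102, e103, e104, e105, e106, e107⟩ := levels8_eq
  have b96 := bound96 h0 h1
  have b97 := Bound.level h0 h1 okR0 (level_of_levelF tab0_ok lenR0_ok e96) b96
  have b98 := Bound.level h0 h1 okR0 (level_of_levelF tab0_ok lenR0_ok e97) b97
  have b99 := Bound.level h0 h1 okR0 (level_of_levelF tab0_ok lenR0_ok e98) b98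
  have b100 := Bound.level h0 h1 okR0 (level_of_levelF tab0_ok lenR0_ok e99) b99
  have b101 := Bound.level h0 h1 okR0 (level_of_levelF tab0_ok lenR0_ok e100) b100
  have b102 := Bound.level h0 h1 okR0 (level_of_levelF tab0_ok lenR0_ok e101) b101
  have b103 := Bound.level h0 h1 okR0 (level_of_levelF tab0_ok lenR0_ok e102) b102
  have b104 := Bound.level h0 h1 okR0 (level_of_levelF tab0_ok lenR0_ok e103) b103
  have b105 := Bound.level h0 h1 okR0 (level_of_levelF tab0_ok lenR0_ok e104) b104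
  have b106 := Bound.level h0 h1 okR0 (level_of_levelF tab0_ok lenR0_ok e105) b105
  have b107 := Bound.level h0 h1 okR0 (level_of_levelF tab0_ok lenR0_ok e106) b106
  have b108 := Bound.level h0 h1 okR0 (level_of_levelF tab0_ok lenR0_ok e107) b107
  exact b108

lemma bound120 (h0 : -1 / 2 ≤ lam) (h1 : lam ≤ 0) : Bound lam tab1 state120 120 := by
  obtain ⟨e108, e109, e110, e111, e112, e113, e114, e115, e116, e117, e118, e119⟩ := levels9_eq
  have b108 := bound108 h0 h1
  have b109 := Bound.level h0 h1 okX0 (level_of_levelF tab0_ok lenX0_ok e108) b108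
  have b110 := Bound.level h0 h1 okR1 (level_of_levelF tab1_ok lenR1_ok e109) b109
  have b111 := Bound.level h0 h1 okR1 (level_of_levelF tab1_ok lenR1_ok e110) b110
  have b112 := Bound.level h0 h1 okR1 (level_of_levelF tab1_ok lenR1_ok e111) b111
  have b113 := Bound.level h0 h1 okR1 (level_of_levelF tab1_ok lenR1_ok e112) b112
  have b114 := Bound.level h0 h1 okR1 (level_of_levelF tab1_ok lenR1_ok e113) b113
  have b115 := Bound.level h0 h1 okR1 (level_of_levelF tab1_ok lenR1_ok e114) b114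
  have b116 := Bound.level h0 h1 okR1 (level_of_levelF tab1_ok lenR1_ok e115) b115
  have b117 := Bound.level h0 h1 okR1 (level_of_levelF tab1_ok lenR1_ok e116) b116
  have b118 := Bound.level h0 h1 okR1 (level_of_levelF tab1_ok lenR1_ok e117) b117
  have b119 := Bound.level h0 h1 okR1 (level_of_levelF tab1_ok lenR1_ok e118) b118
  have b120 := Bound.level h0 h1 okR1 (level_of_levelF tab1_ok lenR1_ok e119) b119
  exact b120

lemma bound132 (h0 : -1 / 2 ≤ lam) (h1 : lam ≤ 0) : Bound lam tab2 state132 132 := by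
  obtain ⟨e120, e121, e122, e123, e124, e125, e126, e127, e128, e129, e130, e131⟩ := levels10_eq
  have b120 := bound120 h0 h1
  have b121 := Bound.level h0 h1 okR1 (level_of_levelF tab1_ok lenR1_ok e120) b120
  have b122 := Bound.level h0 h1 okR1 (level_of_levelF tab1_ok lenR1_ok e121) b121
  have b123 := Bound.level h0 h1 okR1 (level_of_levelF tab1_ok lenR1_ok e122) b122
  have b124 := Bound.level h0 h1 okR1 (level_of_levelF tab1_ok lenR1_ok e123) b123
  have b125 := Bound.level h0 h1 okR1 (level_of_levelF tab1_ok lenR1_ok e124) b124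
  have b126 := Bound.level h0 h1 okR1 (level_of_levelF tab1_ok lenR1_ok e125) b125
  have b127 := Bound.level h0 h1 okR1 (level_of_levelF tab1_ok lenR1_ok e126) b126
  have b128 := Bound.level h0 h1 okX1 (level_of_levelF tab1_ok lenX1_ok e127) b127
  have b129 := Bound.level h0 h1 okR2 (level_of_levelF tab2_ok lenR2_ok e128) b128
  have b130 := Bound.level h0 h1 okR2 (level_of_levelF tab2_ok lenR2_ok e129) b129
  have b131 := Bound.level h0 h1 okR2 (level_of_levelF tab2_ok lenR2_ok e130) b130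
  have b132 := Bound.level h0 h1 okR2 (level_of_levelF tab2_ok lenR2_ok e131) b131
  exact b132

lemma bound144 (h0 : -1 / 2 ≤ lam) (h1 : lam ≤ 0) : Bound lam tab2 state144 144 := by
  obtain ⟨e132, e133, e134, e135, e136, e137, e138, e139, e140, e141, e142, e143⟩ := levels11_eq
  have b132 := bound132 h0 h1
  have b133 := Bound.level h0 h1 okR2 (level_of_levelF tab2_ok lenR2_ok e132) b132
  have b134 := Bound.level h0 h1 okR2 (level_of_levelF tab2_ok lenR2_ok e133) b133
  have b135 := Bound.level h0 h1 okR2 (level_of_levelF tab2_ok lenR2_ok e134) b134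
  have b136 := Bound.level h0 h1 okR2 (level_of_levelF tab2_ok lenR2_ok e135) b135
  have b137 := Bound.level h0 h1 okR2 (level_of_levelF tab2_ok lenR2_ok e136) b136
  have b138 := Bound.level h0 h1 okR2 (level_of_levelF tab2_ok lenR2_ok e137) b137
  have b139 := Bound.level h0 h1 okR2 (level_of_levelF tab2_ok lenR2_ok e138) b138
  have b140 := Bound.level h0 h1 okR2 (level_of_levelF tab2_ok lenR2_ok e139) b139
  have b141 := Bound.level h0 h1 okR2 (level_of_levelF tab2_ok lenR2_ok e140) b140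
  have b142 := Bound.level h0 h1 okR2 (level_of_levelF tab2_ok lenR2_ok e141) b141
  have b143 := Bound.level h0 h1 okR2 (level_of_levelF tab2_ok lenR2_ok e142) b142
  have b144 := Bound.level h0 h1 okR2 (level_of_levelF tab2_ok lenR2_ok e143) b143
  exact b144

lemma valueQ : valueCheck mapI2 tab2 state144 1 1000000 248347 = true := by decide +kernel

lemma valueQ2 : valueCheck mapI2 tab2 state144 2 1000000 99320 = true := by decide +kernel

lemma okValue : (tab2.ok && mapI2.ok tab2 tab2 (fun v => v) &&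
    decide (mapI2.rowF.length = tab2.grpF.length ∧ mapI2.rowE.length = tab2.grpE.length)) = true := by
  have := lenR2_ok
  simp only [okLen, decide_eq_true_eq] at this
  simp only [Bool.and_eq_true, decide_eq_true_eq]
  exact ⟨⟨tab2_ok, mapI2_ok⟩, this.1, this.2.1⟩

/-- At every depth from 145 on, on every law with at most four children and every parameter in
`[-1/2, 0]`, the quadratic potential and its square have small means. -/
theorem upgrade_four (h0 : -1 / 2 ≤ lam) (h1 : lam ≤ 0) {ν : PMF ℕ} (hν : ∀ k, ν k ≠ 0 → k ≤ 4)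
    {n : ℕ} (hn : 145 ≤ n) :
    meanPot 3 lam (potQ (q := 3)) ν n ≤ ENNReal.ofReal (248347 / 1000000) ∧
      meanPot 3 lam (fun p => potQ (q := 3) p ^ 2) ν n ≤ ENNReal.ofReal (99320 / 1000000) := by
  have key : ∀ j B : ℕ, 1 ≤ j → valueCheck mapI2 tab2 state144 j 1000000 B = true →
      meanPot 3 lam (fun p => potQ (q := 3) p ^ j) ν n ≤ ENNReal.ofReal (B / 1000000) := by
    intro j B hj hv
    refine le_trans (meanPot_antitone (by norm_num) (by norm_num; linarith) (by linarith)
      (convex_potQ_pow j) ν hn) (meanPot_le_of_atMostFour hν fun T hT => ?_)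
    have := Bound.value h0 h1 okValue hj hv (bound144 h0 h1) T hT
    rw [le_div_iff₀ (by norm_num)]
    exact_mod_cast this
  refine ⟨?_, ?_⟩
  · have := key 1 248347 le_rfl valueQ
    simpa only [pow_one, Nat.cast_ofNat] using this
  · have := key 2 99320 (by norm_num) valueQ2
    simpa only [Nat.cast_ofNat] using this

end Vale.Agent.P154.Upgrade
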