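import Vale.Agent.P154.Mono

/-!
P154: upgrading finitely supported laws.  A law is a list of weights and integer vectors of
likelihoods; `Cov L G` says that, for every sublinear functional, `L` is bounded by `G` completed
by unit vectors to the same coordinate totals.
-/

namespace Vale.Agent.P154.Upgrade

open scoped BigOperators

/-- A sublinear functional on the nonnegative orthant. -/
structure Sublin (Ψ : (Fin 3 → ℝ) → ℝ) : Prop where
  smul : ∀ r : ℝ, 0 ≤ r → ∀ w, (∀ i, 0 ≤ w i) → Ψ (r • w) = r * Ψ w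
  add : ∀ v w, (∀ i, 0 ≤ v i) → (∀ i, 0 ≤ w i) → Ψ (v + w) ≤ Ψ v + Ψ w

/-- An integer vector. -/
abbrev V := ℕ × ℕ × ℕ

/-- The real vector. -/
noncomputable def rv (v : V) : Fin 3 → ℝ := ![(v.1 : ℝ), (v.2.1 : ℝ), (v.2.2 : ℝ)]

/-- Coordinatewise product. -/
def vmul (a b : V) : V := (a.1 * b.1, a.2.1 * b.2.1, a.2.2 * b.2.2)

/-- A coordinate. -/
def crd (v : V) (i : Fin 3) : ℕ := ![v.1, v.2.1, v.2.2] i

/-- A finitely supported law: weights and vectors. -/
abbrev Law := List (ℕ × V)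

/-- The value of a functional. -/
noncomputable def val (Ψ : (Fin 3 → ℝ) → ℝ) (L : Law) : ℝ :=
  (L.map fun p => (p.1 : ℝ) * Ψ (rv p.2)).sum

/-- The total of a coordinate. -/
def tot (L : Law) (i : Fin 3) : ℕ := (L.map fun p => p.1 * crd p.2 i).sum

/-- Multiplication of all weights. -/
def scale (c : ℕ) (L : Law) : Law := L.map fun p => (c * p.1, p.2)

/-- All products of an element of `L` and an element of `G`. -/
def mulLaw (L G : Law) : Law :=
  L.flatMap fun p => G.map fun p' => (p.1 * p'.1, vmul p.2 p'.2)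

/-- The value of a unit vector. -/
noncomputable def corner (Ψ : (Fin 3 → ℝ) → ℝ) (i : Fin 3) : ℝ :=
  Ψ fun j => if j = i then 1 else 0

/-- `L` is bounded by `G` completed to the totals of `L`. -/
def Cov (L G : Law) : Prop :=
  (∀ i, tot G i ≤ tot L i) ∧ ∀ Ψ, Sublin Ψ →
    val Ψ L ≤ val Ψ G + ∑ i, ((tot L i : ℝ) - tot G i) * corner Ψ i

lemma rv_apply (v : V) (i : Fin 3) : rv v i = (crd v i : ℝ) := by
  fin_cases i <;> simp [rv, crd]

lemma rv_nonneg (v : V) (i : Fin 3) : 0 ≤ rv v i := by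
  rw [rv_apply]; positivity

lemma crd_vmul (a b : V) (i : Fin 3) : crd (vmul a b) i = crd a i * crd b i := by
  fin_cases i <;> simp [crd, vmul]

@[simp] lemma val_nil (Ψ : (Fin 3 → ℝ) → ℝ) : val Ψ [] = 0 := rfl

@[simp] lemma tot_nil (i : Fin 3) : tot [] i = 0 := rfl

lemma val_cons (Ψ : (Fin 3 → ℝ) → ℝ) (p : ℕ × V) (L : Law) :
    val Ψ (p :: L) = (p.1 : ℝ) * Ψ (rv p.2) + val Ψ L := by
  simp [val]

lemma tot_cons (p : ℕ × V) (L : Law) (i : Fin 3) :
    tot (p :: L) i = p.1 * crd p.2 i + tot L i := by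
  simp [tot]

lemma val_append (Ψ : (Fin 3 → ℝ) → ℝ) (L G : Law) : val Ψ (L ++ G) = val Ψ L + val Ψ G := by
  simp [val, List.map_append, List.sum_append]

lemma tot_append (L G : Law) (i : Fin 3) : tot (L ++ G) i = tot L i + tot G i := by
  simp [tot, List.map_append, List.sum_append]

lemma val_scale (Ψ : (Fin 3 → ℝ) → ℝ) (c : ℕ) (L : Law) :
    val Ψ (scale c L) = (c : ℝ) * val Ψ L := by
  induction L with
  | nil => simp [scale]
  | cons p L ih =>
    have e : scale c (p :: L) = (c * p.1, p.2) :: scale c L := rfl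
    rw [e, val_cons, val_cons, ih]
    push_cast
    ring

lemma tot_scale (c : ℕ) (L : Law) (i : Fin 3) : tot (scale c L) i = c * tot L i := by
  induction L with
  | nil => simp [scale]
  | cons p L ih =>
    have e : scale c (p :: L) = (c * p.1, p.2) :: scale c L := rfl
    rw [e, tot_cons, tot_cons, ih]
    ring

lemma Sublin.corner_decomp {Ψ : (Fin 3 → ℝ) → ℝ} (hΨ : Sublin Ψ) {r : Fin 3 → ℝ}
    (hr : ∀ i, 0 ≤ r i) : Ψ r ≤ ∑ i, r i * corner Ψ i := by
  have he : ∀ i : Fin 3, ∀ j, (0 : ℝ) ≤ (fun j => if j = i then (1 : ℝ) else 0) j := by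
    intro i j; simp only; split_ifs <;> norm_num
  have hsm : ∀ i : Fin 3, ∀ j, (0 : ℝ) ≤ (r i • fun j => if j = i then (1 : ℝ) else 0) j :=
    fun i j => mul_nonneg (hr i) (he i j)
  have h : r = (r 0 • fun j => if j = (0 : Fin 3) then (1 : ℝ) else 0) +
      ((r 1 • fun j => if j = (1 : Fin 3) then (1 : ℝ) else 0) +
        (r 2 • fun j => if j = (2 : Fin 3) then (1 : ℝ) else 0)) := by
    funext j; fin_cases j <;> simp
  rw [Fin.sum_univ_three]
  conv_lhs => rw [h]
  refine le_trans (hΨ.add _ _ (hsm 0) fun j => add_nonneg (hsm 1 j) (hsm 2 j)) ?_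
  refine le_trans (add_le_add le_rfl (hΨ.add _ _ (hsm 1) (hsm 2))) ?_
  simp only [hΨ.smul _ (hr _) _ (he _), corner]
  linarith

lemma Sublin.le_val {Ψ : (Fin 3 → ℝ) → ℝ} (hΨ : Sublin Ψ) :
    ∀ (G : Law) (r : Fin 3 → ℝ), (∀ i, 0 ≤ r i) →
      Ψ (fun i => (tot G i : ℝ) + r i) ≤ val Ψ G + ∑ i, r i * corner Ψ i := by
  intro G
  induction G with
  | nil => intro r hr; simpa using hΨ.corner_decomp hr
  | cons p G ih =>
    intro r hr
    have h : (fun i => (tot (p :: G) i : ℝ) + r i) =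
        ((p.1 : ℝ) • rv p.2) + fun i => (tot G i : ℝ) + r i := by
      funext i
      simp only [tot_cons, Pi.add_apply, Pi.smul_apply, smul_eq_mul, rv_apply]
      push_cast
      ring
    rw [h, val_cons]
    refine le_trans (hΨ.add _ _ (fun i => mul_nonneg (Nat.cast_nonneg _) (rv_nonneg _ i))
      fun i => add_nonneg (Nat.cast_nonneg _) (hr i)) ?_
    rw [hΨ.smul _ (Nat.cast_nonneg _) _ (rv_nonneg _)]
    linarith [ih r hr]

lemma Cov.refl (L : Law) : Cov L L := ⟨fun _ => le_rfl, fun Ψ _ => by simp⟩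

lemma Cov.trans {L G H : Law} (h : Cov L G) (h' : Cov G H) : Cov L H := by
  refine ⟨fun i => (h'.1 i).trans (h.1 i), fun Ψ hΨ => ?_⟩
  have := h.2 Ψ hΨ
  have := h'.2 Ψ hΨ
  simp only [sub_mul, Finset.sum_sub_distrib] at *
  linarith

lemma Cov.append {L L' G G' : Law} (h : Cov L G) (h' : Cov L' G') : Cov (L ++ L') (G ++ G') := by
  refine ⟨fun i => by simpa [tot_append] using add_le_add (h.1 i) (h'.1 i), fun Ψ hΨ => ?_⟩
  have := h.2 Ψ hΨ
  have := h'.2 Ψ hΨ
  simp only [tot_append, val_append, Nat.cast_add, sub_mul, add_mul, Finset.sum_sub_distrib,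
    Finset.sum_add_distrib] at *
  linarith

lemma Cov.scale {L G : Law} (h : Cov L G) (c : ℕ) :
    Cov (Upgrade.scale c L) (Upgrade.scale c G) := by
  refine ⟨fun i => by simpa [tot_scale] using Nat.mul_le_mul_left c (h.1 i), fun Ψ hΨ => ?_⟩
  have := mul_le_mul_of_nonneg_left (h.2 Ψ hΨ) (Nat.cast_nonneg (α := ℝ) c)
  simp only [tot_scale, val_scale, Nat.cast_mul, mul_add, Finset.mul_sum] at this ⊢
  refine this.trans (le_of_eq ?_)
  congr 1
  exact Finset.sum_congr rfl fun i _ => by ring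

lemma cov_congr {L G : Law} (ht : ∀ i, tot G i = tot L i)
    (hv : ∀ Ψ, val Ψ L = val Ψ G) : Cov L G :=
  ⟨fun i => (ht i).le, fun Ψ _ => by simp [ht, hv]⟩

lemma cov_split {K : ℕ} {src : V} {G : Law} (h : ∀ i, tot G i ≤ K * crd src i) :
    Cov [(K, src)] G := by
  refine ⟨fun i => by simpa [tot_cons] using h i, fun Ψ hΨ => ?_⟩
  have hr : ∀ i, (0 : ℝ) ≤ (K : ℝ) * crd src i - tot G i := by
    intro i
    have := (Nat.cast_le (α := ℝ)).mpr (h i)
    push_cast at this
    linarith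
  have := hΨ.le_val G _ hr
  have e : (fun i => (tot G i : ℝ) + ((K : ℝ) * crd src i - tot G i)) = (K : ℝ) • rv src := by
    funext i; simp [rv_apply]
  rw [e, hΨ.smul _ (Nat.cast_nonneg _) _ (rv_nonneg _)] at this
  simpa [val_cons, tot_cons] using this

lemma cov_nil (L : Law) : Cov L [] := by
  induction L with
  | nil => exact Cov.refl []
  | cons p L ih =>
    have h : Cov [p] [] := cov_split (K := p.1) (src := p.2) (G := []) fun i => by simp
    simpa using h.append ih

lemma Cov.trans_append_left {L G H : Law} (h : Cov L (G ++ H)) : Cov L G :=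
  h.trans (by simpa using (Cov.refl G).append (cov_nil H))

lemma val_mulLaw (Ψ : (Fin 3 → ℝ) → ℝ) (L G : Law) :
    val Ψ (mulLaw L G) =
      (L.map fun p => (p.1 : ℝ) * val (fun w => Ψ (fun i => rv p.2 i * w i)) G).sum := by
  induction L with
  | nil => rfl
  | cons p L ih =>
    have e : mulLaw (p :: L) G =
        (G.map fun p' => (p.1 * p'.1, vmul p.2 p'.2)) ++ mulLaw L G := rfl
    rw [e, val_append, ih, List.map_cons, List.sum_cons]
    congr 1
    clear ih e
    induction G with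
    | nil => simp
    | cons p' G ihG =>
      have e2 : rv (vmul p.2 p'.2) = fun i => rv p.2 i * rv p'.2 i := by
        funext i; simp [rv_apply, crd_vmul]
      rw [List.map_cons, val_cons, ihG, val_cons, e2]
      push_cast
      ring

lemma tot_mulLaw (L G : Law) (i : Fin 3) : tot (mulLaw L G) i = tot L i * tot G i := by
  induction L with
  | nil => simp [mulLaw]
  | cons p L ih =>
    have e : mulLaw (p :: L) G =
        (G.map fun p' => (p.1 * p'.1, vmul p.2 p'.2)) ++ mulLaw L G := rfl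
    rw [e, tot_append, ih, tot_cons, add_mul]
    congr 1
    clear ih e
    induction G with
    | nil => simp
    | cons p' G ihG =>
      rw [List.map_cons, tot_cons, ihG, tot_cons, crd_vmul]
      ring

lemma Sublin.comp_mul {Ψ : (Fin 3 → ℝ) → ℝ} (hΨ : Sublin Ψ) {a : Fin 3 → ℝ} (ha : ∀ i, 0 ≤ a i) :
    Sublin fun w => Ψ fun i => a i * w i := by
  refine ⟨fun r hr w hw => ?_, fun v w hv hw => ?_⟩
  · rw [← hΨ.smul r hr _ fun i => mul_nonneg (ha i) (hw i)]
    congr 1; funext i; simp; ring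
  · refine le_trans (le_of_eq ?_) (hΨ.add _ _ (fun i => mul_nonneg (ha i) (hv i))
      fun i => mul_nonneg (ha i) (hw i))
    congr 1; funext i; simp [mul_add]

lemma corner_comp_mul {Ψ : (Fin 3 → ℝ) → ℝ} (hΨ : Sublin Ψ) {a : Fin 3 → ℝ} (ha : ∀ i, 0 ≤ a i)
    (i : Fin 3) : corner (fun w => Ψ fun j => a j * w j) i = a i * corner Ψ i := by
  unfold corner
  rw [← hΨ.smul _ (ha i) _ fun j => by split_ifs <;> norm_num]
  refine congrArg Ψ (funext fun j => ?_)
  by_cases h : j = i <;> simp [h]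

lemma Cov.mul_left {G G' : Law} (h : Cov G G') (L : Law) : Cov (mulLaw L G) (mulLaw L G') := by
  refine ⟨fun i => by simpa [tot_mulLaw] using Nat.mul_le_mul_left _ (h.1 i), fun Ψ hΨ => ?_⟩
  rw [val_mulLaw, val_mulLaw]
  simp only [tot_mulLaw, Nat.cast_mul]
  induction L with
  | nil => simp
  | cons p L ih =>
    have h2 := mul_le_mul_of_nonneg_left (h.2 _ (hΨ.comp_mul (rv_nonneg p.2)))
      (Nat.cast_nonneg (α := ℝ) p.1)
    simp only [corner_comp_mul hΨ (rv_nonneg p.2)] at h2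
    simp only [List.map_cons, List.sum_cons, tot_cons, Nat.cast_add, Nat.cast_mul, rv_apply,
      Fin.sum_univ_three] at h2 ih ⊢
    linarith

lemma val_mulLaw_comm (Ψ : (Fin 3 → ℝ) → ℝ) (L G : Law) :
    val Ψ (mulLaw L G) = val Ψ (mulLaw G L) := by
  induction L with
  | nil =>
    induction G with
    | nil => rfl
    | cons p G ih =>
      rw [val_mulLaw (G := []), List.map_cons, List.sum_cons, ← val_mulLaw (G := []), ← ih]
      simp [mulLaw]
  | cons p L ih =>
    rw [val_mulLaw, List.map_cons, List.sum_cons, ← val_mulLaw, ih]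
    clear ih
    induction G with
    | nil => simp [val_mulLaw]
    | cons p' G ihG =>
      have e2 : (fun i => rv p.2 i * rv p'.2 i) = fun i => rv p'.2 i * rv p.2 i := by
        funext i; ring
      simp only [val_mulLaw, List.map_cons, List.sum_cons, val_cons] at ihG ⊢
      rw [e2]
      linarith [ihG]

lemma Cov.mul_right {L L' : Law} (h : Cov L L') (G : Law) : Cov (mulLaw L G) (mulLaw L' G) := by
  have h2 := h.mul_left G
  refine ⟨fun i => by simpa [tot_mulLaw, mul_comm] using h2.1 i, fun Ψ hΨ => ?_⟩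
  have := h2.2 Ψ hΨ
  rw [val_mulLaw_comm Ψ G L, val_mulLaw_comm Ψ G L'] at this
  refine this.trans (le_of_eq ?_)
  simp [tot_mulLaw, mul_comm]

lemma Cov.mul {L L' G G' : Law} (h : Cov L L') (h' : Cov G G') :
    Cov (mulLaw L G) (mulLaw L' G') :=
  (h.mul_right G).trans (h'.mul_left L')

/-- A family bounded by a completed law with all totals `d`. -/
def Dom {ι : Type} [Fintype ι] (v : ι → Fin 3 → ℝ) (d : ℕ) (L : Law) : Prop :=
  (∀ i, tot L i ≤ d) ∧ ∀ Ψ, Sublin Ψ →
    (d : ℝ) * ∑ τ, Ψ (v τ) ≤ val Ψ L + ∑ i, ((d : ℝ) - tot L i) * corner Ψ i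

lemma Dom.cov {ι : Type} [Fintype ι] {v : ι → Fin 3 → ℝ} {d : ℕ} {L G : Law} (h : Dom v d L)
    (hc : Cov L G) : Dom v d G := by
  refine ⟨fun i => (hc.1 i).trans (h.1 i), fun Ψ hΨ => ?_⟩
  have := h.2 Ψ hΨ
  have := hc.2 Ψ hΨ
  simp only [sub_mul, Finset.sum_sub_distrib] at *
  linarith

lemma Dom.scale {ι : Type} [Fintype ι] {v : ι → Fin 3 → ℝ} {d : ℕ} {L : Law} (h : Dom v d L)
    (c : ℕ) : Dom v (c * d) (Upgrade.scale c L) := by
  refine ⟨fun i => by simpa [tot_scale] using Nat.mul_le_mul_left c (h.1 i), fun Ψ hΨ => ?_⟩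
  have := mul_le_mul_of_nonneg_left (h.2 Ψ hΨ) (Nat.cast_nonneg (α := ℝ) c)
  simp only [tot_scale, val_scale, Nat.cast_mul, mul_add, Finset.mul_sum] at this ⊢
  calc _ = _ := by simp only [mul_assoc]
    _ ≤ _ := this
    _ = _ := by congr 1; exact Finset.sum_congr rfl fun i _ => by ring

lemma Dom.mul {ι κ : Type} [Fintype ι] [Fintype κ] {u : ι → Fin 3 → ℝ} {v : κ → Fin 3 → ℝ}
    {d e : ℕ} {L G : Law} (hu : ∀ x i, 0 ≤ u x i) (hu1 : ∀ i, ∑ x, u x i = 1) (h : Dom u d L) (h' : Dom v e G) :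
    Dom (fun p : ι × κ => fun i => u p.1 i * v p.2 i) (d * e) (mulLaw L G) := by
  refine ⟨fun i => by simpa [tot_mulLaw] using Nat.mul_le_mul (h.1 i) (h'.1 i), fun Ψ hΨ => ?_⟩
  rw [Fintype.sum_prod_type]
  -- first the inner family, for each outer vector
  have h1 : ∀ x, (e : ℝ) * ∑ y, Ψ (fun i => u x i * v y i) ≤
      val (fun w => Ψ fun i => u x i * w i) G +
        ∑ i, ((e : ℝ) - tot G i) * (u x i * corner Ψ i) := by
    intro x
    have := h'.2 _ (hΨ.comp_mul (hu x))
    simpa only [corner_comp_mul hΨ (hu x)] using this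
  -- then every atom of the inner law
  have hflip : ∀ (w : Fin 3 → ℝ), (∀ i, 0 ≤ w i) →
      (d : ℝ) * ∑ x, Ψ (fun i => u x i * w i) ≤
        val (fun z => Ψ fun i => z i * w i) L +
          ∑ i, ((d : ℝ) - tot L i) * (w i * corner Ψ i) := by
    intro w hw
    have := h.2 _ (hΨ.comp_mul hw)
    simp only [corner_comp_mul hΨ hw] at this
    simpa only [mul_comm (w _)] using this
  have hsum : (d : ℝ) * ∑ x, val (fun w => Ψ fun i => u x i * w i) G ≤
      val Ψ (mulLaw L G) + ∑ i, ((d : ℝ) - tot L i) * tot G i * corner Ψ i := by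
    rw [val_mulLaw_comm, val_mulLaw]
    clear h1 h'
    induction G with
    | nil => simp
    | cons p G ih =>
      simp only [val_cons, Finset.sum_add_distrib, mul_add, List.map_cons, List.sum_cons,
        tot_cons, Nat.cast_add, Nat.cast_mul]
      have h2 := mul_le_mul_of_nonneg_left (hflip _ (rv_nonneg p.2)) (Nat.cast_nonneg (α := ℝ) p.1)
      simp only [mul_add, ← Finset.mul_sum] at h2 ⊢
      have e3 : val (fun z => Ψ fun i => z i * rv p.2 i) L =
          val (fun w => Ψ fun i => rv p.2 i * w i) L := by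
        congr 1; funext z; congr 1; funext i; ring
      rw [e3] at h2
      simp only [rv_apply, Fin.sum_univ_three] at h2 ih ⊢
      linarith
  simp only [tot_mulLaw, Nat.cast_mul]
  have h3 : (d : ℝ) * ((e : ℝ) * ∑ x, ∑ y, Ψ (fun i => u x i * v y i)) ≤
      (d : ℝ) * ∑ x, val (fun w => Ψ fun i => u x i * w i) G +
        (d : ℝ) * ∑ i, ((e : ℝ) - tot G i) * corner Ψ i := by
    rw [← mul_add]
    refine mul_le_mul_of_nonneg_left ?_ (Nat.cast_nonneg d)
    rw [Finset.mul_sum]
    refine (Finset.sum_le_sum fun x _ => h1 x).trans (le_of_eq ?_)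
    rw [Finset.sum_add_distrib, Finset.sum_comm]
    congr 1
    refine Finset.sum_congr rfl fun i _ => ?_
    rw [← Finset.mul_sum, ← Finset.sum_mul, hu1, one_mul]
  simp only [Fin.sum_univ_three] at hsum h3 ⊢
  nlinarith

end Vale.Agent.P154.Upgrade
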