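import Vale.Agent.P154.Upgrade.Prog

/-!
P154: a quicker form of the same computation, working on packed numbers in single passes.
-/

namespace Vale.Agent.P154.Upgrade

open scoped BigOperators

/-- The indices of a list packed with weight one. -/
noncomputable def packIdx (B : ℕ) (o : List ℕ) : ℕ :=
  List.rec 0 (fun i _ ih => Nat.add (Nat.shiftLeft 1 (Nat.mul B i)) ih) o

/-- Packed spread weights. -/
noncomputable def encSpread (B : ℕ) (os : List (List ℕ)) : List ℕ → ℕ :=
  List.rec (fun _ => 0)
    (fun o _ ih y => List.rec 0 (fun w ys _ => Nat.add (Nat.mul w (packIdx B o)) (ih ys)) y) os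

/-- Total of spread weights. -/
noncomputable def wSpread (os : List (List ℕ)) : List ℕ → ℕ :=
  List.rec (fun _ => 0)
    (fun o _ ih y => List.rec 0
      (fun w ys _ => Nat.add (Nat.mul w (List.rec 0 (fun _ _ n => Nat.add n 1) o)) (ih ys)) y) os

/-- A list of coefficients packed. -/
noncomputable def packCoef (B : ℕ) (r : List (ℕ × ℕ)) : ℕ :=
  List.rec 0 (fun e _ ih => Prod.rec (fun c m => Nat.add (Nat.shiftLeft c (Nat.mul B m)) ih) e) r

/-- The sum of the coefficients. -/
noncomputable def sumCoef (r : List (ℕ × ℕ)) : ℕ :=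
  List.rec 0 (fun e _ ih => Prod.rec (fun c _ => Nat.add c ih) e) r

/-- Packed projected weights. -/
noncomputable def encProj (B : ℕ) (ps : List (List (ℕ × ℕ))) : List ℕ → ℕ :=
  List.rec (fun _ => 0)
    (fun p _ ih y => List.rec 0 (fun w ys _ => Nat.add (Nat.mul w (packCoef B p)) (ih ys)) y) ps

/-- Total of projected weights. -/
noncomputable def wProj (ps : List (List (ℕ × ℕ))) : List ℕ → ℕ :=
  List.rec (fun _ => 0)
    (fun p _ ih y => List.rec 0 (fun w ys _ => Nat.add (Nat.mul w (sumCoef p)) (ih ys)) y) ps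

/-- One row of digits added to its groups. -/
noncomputable def gatherRow (B BG : ℕ) (gs : List (Option ℕ)) : ℕ → ℕ → ℕ :=
  List.rec (fun _ acc => acc) (fun o _ ih x acc => Option.rec (ih (Nat.shiftRight x B) acc)
    (fun g => ih (Nat.shiftRight x B)
      (Nat.add acc (Nat.shiftLeft (Nat.mod x (Nat.pow 2 B)) (Nat.mul BG g)))) o) gs

/-- All rows of digits added to their groups. -/
noncomputable def gather (B BG W : ℕ) (rows : List (List (Option ℕ))) : ℕ → ℕ :=
  List.rec (fun _ => 0) (fun r _ ih x => Nat.add (gatherRow B BG r (Nat.mod x (Nat.pow 2 W)) 0)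
    (ih (Nat.shiftRight x W))) rows

/-- A row of a splitting packed. -/
noncomputable def packRow (B : ℕ) (r : List (ℕ × ℕ × ℕ)) : ℕ :=
  List.rec 0 (fun e _ ih => Prod.rec (fun c kt =>
    Prod.rec (fun _ t => Nat.add (Nat.shiftLeft c (Nat.mul B t)) ih) kt) e) r

/-- The sum of the coefficients of a row. -/
noncomputable def sumRow (r : List (ℕ × ℕ × ℕ)) : ℕ :=
  List.rec 0 (fun e _ ih => Prod.rec (fun c _ => Nat.add c ih) e) r

/-- Packed scattered weights. -/
noncomputable def mapRows (BG BT : ℕ) (rows : List (List (ℕ × ℕ × ℕ))) : ℕ → ℕ :=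
  List.rec (fun _ => 0) (fun r _ ih x =>
    Nat.add (Nat.mul (Nat.mod x (Nat.pow 2 BG)) (packRow BT r)) (ih (Nat.shiftRight x BG))) rows

/-- Total of scattered weights. -/
noncomputable def wRows (BG : ℕ) (rows : List (List (ℕ × ℕ × ℕ))) : ℕ → ℕ :=
  List.rec (fun _ => 0) (fun r _ ih x =>
    Nat.add (Nat.mul (Nat.mod x (Nat.pow 2 BG)) (sumRow r)) (ih (Nat.shiftRight x BG))) rows

/-- The weighted coordinate sums of packed groups. -/
noncomputable def dotCoord (BG : ℕ) (vs : List V) : ℕ → ℕ :=
  List.rec (fun _ => 0) (fun v _ ih x =>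
    Nat.add (Nat.mul (Nat.mod x (Nat.pow 2 BG)) (v.1 + v.2.1 + v.2.2)) (ih (Nat.shiftRight x BG))) vs

lemma enc_map_const (B w : ℕ) (o : List ℕ) :
    enc B (o.map fun i => (w, i)) = w * packIdx B o := by
  induction o with
  | nil => rfl
  | cons i o ih =>
    rw [List.map_cons, enc_cons, ih]
    show _ = w * (Nat.shiftLeft 1 (B * i) + packIdx B o)
    rw [Nat.mul_add, show Nat.shiftLeft 1 (B * i) = 1 <<< (B * i) from rfl, Nat.shiftLeft_eq,
      one_mul]

lemma wsum_map_const (w : ℕ) (o : List ℕ) :
    wsum (o.map fun i => (w, i)) = w * List.rec 0 (fun _ _ n => Nat.add n 1) o := by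
  induction o with
  | nil => rfl
  | cons i o ih =>
    simp only [wsum, List.map_cons, List.sum_cons] at ih ⊢
    rw [ih]
    show _ = w * (List.rec 0 (fun _ _ n => Nat.add n 1) o + 1)
    ring

lemma encSpread_eq (B : ℕ) : ∀ (os : List (List ℕ)) (y : List ℕ),
    encSpread B os y = enc B (spread y os) ∧ wSpread os y = wsum (spread y os)
  | [], y => by simp [spread, encSpread, wSpread, enc, wsum]
  | _ :: _, [] => ⟨rfl, rfl⟩
  | o :: os, w :: y => by
    obtain ⟨h, h'⟩ := encSpread_eq B os y
    simp only [spread, List.zip_cons_cons, List.flatMap_cons] at h h' ⊢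
    rw [enc_append, wsum_append, enc_map_const, wsum_map_const, ← h, ← h']
    exact ⟨rfl, rfl⟩

lemma encProj_eq (B : ℕ) : ∀ (ps : List (List (ℕ × ℕ))) (y : List ℕ),
    encProj B ps y = enc B ((y.zip ps).flatMap fun wp => wp.2.map fun cm => (wp.1 * cm.1, cm.2)) ∧
      wProj ps y = wsum ((y.zip ps).flatMap fun wp => wp.2.map fun cm => (wp.1 * cm.1, cm.2))
  | [], y => by simp [encProj, wProj, enc, wsum]
  | _ :: _, [] => ⟨rfl, rfl⟩
  | p :: ps, w :: y => by
    obtain ⟨h, h'⟩ := encProj_eq B ps y
    simp only [List.zip_cons_cons, List.flatMap_cons] at h h' ⊢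
    rw [enc_append, wsum_append, ← h, ← h']
    have : enc B (p.map fun cm => (w * cm.1, cm.2)) = w * packCoef B p ∧
        wsum (p.map fun cm => (w * cm.1, cm.2)) = w * sumCoef p := by
      clear h h'
      induction p with
      | nil => exact ⟨rfl, rfl⟩
      | cons e p ih =>
        obtain ⟨c, m⟩ := e
        refine ⟨?_, ?_⟩
        · rw [List.map_cons, enc_cons, ih.1]
          show _ = w * (c <<< (B * m) + packCoef B p)
          rw [Nat.shiftLeft_eq]; ring
        · have e2 := ih.2
          simp only [wsum, List.map_cons, List.sum_cons] at e2 ⊢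
          rw [e2]
          show _ = w * (c + sumCoef p)
          ring
    rw [this.1, this.2]
    exact ⟨rfl, rfl⟩

lemma gatherRow_eq (B BG : ℕ) : ∀ (gs : List (Option ℕ)) (x acc : ℕ),
    gatherRow B BG gs x acc = acc + enc BG (pick gs (digits B gs.length x))
  | [], x, acc => rfl
  | none :: gs, x, acc => by
    show gatherRow B BG gs (x >>> B) acc = _
    rw [gatherRow_eq B BG gs]
    rfl
  | some g :: gs, x, acc => by
    show gatherRow B BG gs (x >>> B) (acc + (x % 2 ^ B) <<< (BG * g)) = _
    rw [gatherRow_eq B BG gs, List.length_cons, digits, pick, enc_cons, Nat.shiftLeft_eq, add_assoc]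

lemma pick_append : ∀ (g g' : List (Option ℕ)) (w w' : List ℕ), g.length = w.length →
    pick (g ++ g') (w ++ w') = pick g w ++ pick g' w'
  | [], _, [], _, _ => by simp [pick]
  | [], _, _ :: _, _, h => by simp at h
  | _ :: _, _, [], _, h => by simp at h
  | none :: g, g', a :: w, w', h => by
    simp only [List.cons_append, pick]
    exact pick_append g g' w w' (by simpa using h)
  | some b :: g, g', a :: w, w', h => by
    simp only [List.cons_append, pick]
    rw [pick_append g g' w w' (by simpa using h)]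

lemma gather_eq (B BG S : ℕ) : ∀ (rows : List (List (Option ℕ))) (x : ℕ),
    (∀ r ∈ rows, r.length = S) →
    gather B BG (B * S) rows x = enc BG (pick rows.flatten (digitsRows B rows.length S x))
  | [], x, _ => rfl
  | r :: rows, x, h => by
    show gatherRow B BG r (x % 2 ^ (B * S)) 0 + gather B BG (B * S) rows (x >>> (B * S)) = _
    rw [gatherRow_eq, gather_eq B BG S rows _ fun r' hr' => h r' (List.mem_cons_of_mem _ hr'),
      zero_add, List.flatten_cons, h r List.mem_cons_self]
    rw [show digitsRows B (r :: rows).length S x = digits B S (x % 2 ^ (B * S)) ++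
        digitsRows B rows.length S (x >>> (B * S)) from rfl,
      pick_append _ _ _ _ (by rw [digits_length, h r List.mem_cons_self]), enc_append]

lemma wsum_pick_le : ∀ (gs : List (Option ℕ)) (ws : List ℕ), wsum (pick gs ws) ≤ ws.sum
  | [], _ => by simp [pick, wsum]
  | _ :: _, [] => by simp [pick, wsum]
  | none :: gs, w :: ws => by
    have := wsum_pick_le gs ws
    simp only [pick, List.sum_cons]
    omega
  | some g :: gs, w :: ws => by
    have := wsum_pick_le gs ws
    simp only [pick, wsum, List.map_cons, List.sum_cons] at this ⊢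
    omega

lemma sum_digits_enc {B n : ℕ} {t : List (ℕ × ℕ)} (hn : ∀ p ∈ t, p.2 < n) (hB : wsum t < 2 ^ B) :
    (digits B n (enc B t)).sum = wsum t := by
  have h := val_law_eq_count (fun _ => (1 : ℝ)) (fun _ => ((0, 0, 0) : V)) n t hn
  have e1 : ∀ L : List (ℕ × ℕ),
      val (fun _ => (1 : ℝ)) (law (fun _ => ((0, 0, 0) : V)) L) = (wsum L : ℝ) := by
    intro L
    induction L with
    | nil => simp [law, wsum]
    | cons p L ih =>
      simp only [law, List.map_cons, val_cons, wsum, List.sum_cons] at ih ⊢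
      rw [ih]
      push_cast
      ring
  rw [e1] at h
  rw [digits_enc hn hB]
  have e2 : ∀ m, ((List.range m).map (count t)).sum = ∑ I ∈ Finset.range m, count t I := by
    intro m
    induction m with
    | zero => simp
    | succ m ih => simp [List.range_succ, Finset.sum_range_succ, ih]
  rw [e2]
  simp only [mul_one] at h
  exact_mod_cast h.symm

lemma mapRows_eq (BG BT : ℕ) : ∀ (rows : List (List (ℕ × ℕ × ℕ))) (x : ℕ),
    mapRows BG BT rows x = enc BT (scatter (digits BG rows.length x) rows) ∧
      wRows BG rows x = wsum (scatter (digits BG rows.length x) rows)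
  | [], x => ⟨rfl, rfl⟩
  | r :: rows, x => by
    obtain ⟨h, h'⟩ := mapRows_eq BG BT rows (x >>> BG)
    have e : scatter (digits BG (r :: rows).length x) (r :: rows) =
        (r.map fun e => (x % 2 ^ BG * e.1, e.2.2)) ++ scatter (digits BG rows.length (x >>> BG)) rows :=
      rfl
    rw [e, enc_append, wsum_append, ← h, ← h']
    have : ∀ w, enc BT (r.map fun e => (w * e.1, e.2.2)) = w * packRow BT r ∧
        wsum (r.map fun e => (w * e.1, e.2.2)) = w * sumRow r := by
      intro w
      clear h h' e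
      induction r with
      | nil => exact ⟨rfl, rfl⟩
      | cons e r ih =>
        obtain ⟨c, k, t⟩ := e
        refine ⟨?_, ?_⟩
        · rw [List.map_cons, enc_cons, ih.1]
          show _ = w * (c <<< (BT * t) + packRow BT r)
          rw [Nat.shiftLeft_eq]; ring
        · have e2 := ih.2
          simp only [wsum, List.map_cons, List.sum_cons] at e2 ⊢
          rw [e2]
          show _ = w * (c + sumRow r)
          ring
    rw [(this _).1, (this _).2]
    exact ⟨rfl, rfl⟩

lemma dotCoord_eq (BG : ℕ) : ∀ (vs : List V) (x : ℕ),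
    dotCoord BG vs x = coordSum ((digits BG vs.length x).zip vs)
  | [], x => rfl
  | v :: vs, x => by
    show x % 2 ^ BG * (v.1 + v.2.1 + v.2.2) + dotCoord BG vs (x >>> BG) = _
    rw [dotCoord_eq BG vs]
    simp [coordSum, digits]

lemma coordSum_append (L G : Law) : coordSum (L ++ G) = coordSum L + coordSum G := by
  simp [coordSum]

/-- The weight of a side product. -/
noncomputable def Tab.wSide (T : Tab) (y : List ℕ) (z : ℕ) : ℕ :=
  wSpread T.orbE (y.drop T.orbF.length) *
    (wSpread T.orbE (y.drop T.orbF.length) + 2 * wProj (T.proj.getD z []) y)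

/-- No overflow in a square or in the sums over the groups. -/
noncomputable def Tab.fits (T : Tab) (y : List ℕ) : Bool :=
  Nat.blt (wSpread T.orbF y * wSpread T.orbF y) (2 ^ T.BF) &&
  Nat.blt (wSpread T.orbF y * wSpread T.orbF y) (2 ^ T.BG) &&
  Nat.blt (T.wSide y 0) (2 ^ T.BE) && Nat.blt (T.wSide y 1) (2 ^ T.BE) &&
  Nat.blt (T.wSide y 2) (2 ^ T.BE) &&
  Nat.blt (T.wSide y 0 + T.wSide y 1 + T.wSide y 2) (2 ^ T.BH)

/-- The packed interior groups of a square. -/
noncomputable def Tab.sqF (T : Tab) (y : List ℕ) : ℕ :=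
  gather T.BF T.BG (T.BF * T.S) T.gidRows (encSpread T.BF T.orbF y * encSpread T.BF T.orbF y)

/-- A packed side of a square. -/
noncomputable def Tab.sqSide (T : Tab) (y : List ℕ) (z : ℕ) : ℕ :=
  gatherRow T.BE T.BH T.gidE (encSpread T.BE T.orbE (y.drop T.orbF.length) *
    (encSpread T.BE T.orbE (y.drop T.orbF.length) + 2 * encProj T.BE (T.proj.getD z []) y)) 0

/-- The packed side groups of a square. -/
noncomputable def Tab.sqE (T : Tab) (y : List ℕ) : ℕ :=
  T.sqSide y 0 + T.sqSide y 1 + T.sqSide y 2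

/-- The packed scattered weights of a square. -/
noncomputable def Map.sumRows (P : Map) (S : Tab) (y : List ℕ) : ℕ :=
  mapRows S.BG P.BT P.rowF (S.sqF y) + mapRows S.BH P.BT P.rowE (S.sqE y)

/-- Their total. -/
noncomputable def Map.wSumRows (P : Map) (S : Tab) (y : List ℕ) : ℕ :=
  wRows S.BG P.rowF (S.sqF y) + wRows S.BH P.rowE (S.sqE y)

/-- The weight from the corners. -/
noncomputable def Map.cornerF (P : Map) (S T : Tab) (y : List ℕ) : ℕ :=
  (6 * (S.D * S.D) - 2 * (dotCoord S.BG S.gvF (S.sqF y) + dotCoord S.BH S.gvE (S.sqE y))) /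
    (2 * (T.reps.getD P.tc (0, 0, 0)).2.1)

/-- The quick form of a square followed by a splitting. -/
noncomputable def Map.flatF (P : Map) (S T : Tab) (y : List ℕ) : Option (List ℕ) :=
  if S.fits y && Nat.blt (P.wSumRows S y) (2 ^ P.BT) then
    some ((digits P.BT T.reps.length (P.sumRows S y)).map fun w => w * T.D / (6 * (S.D * S.D)))
  else none

/-- The quick form of a square followed by a splitting through the channel. -/
noncomputable def Map.chanF (P : Map) (S T : Tab) (y : List ℕ) : Option (List ℕ) :=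
  if S.fits y && Nat.blt (P.cornerF S T y + P.wSumRows S y) (2 ^ P.BT) then
    some ((digits P.BT T.reps.length
      (P.cornerF S T y <<< (P.BT * P.tc) + P.sumRows S y)).map
        fun w => w * T.D / (2 * (6 * (S.D * S.D))))
  else none

/-- The quick form of a level. -/
noncomputable def levelF (Q R : Map) (S T : Tab) (y : List ℕ) : Option (List ℕ) :=
  Option.rec none (fun w => R.chanF S T w) (Q.flatF S S y)

/-- The lengths of the rows fit the groups. -/
def okLen (Q R : Map) (S : Tab) : Bool :=
  decide (Q.rowF.length = S.grpF.length ∧ Q.rowE.length = S.grpE.length ∧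
    R.rowF.length = S.grpF.length ∧ R.rowE.length = S.grpE.length)

lemma Tab.fits_spec {T : Tab} (h : T.ok = true) {y : List ℕ} (hf : T.fits y = true) :
    T.sqFits y = true ∧ T.grFits (T.rawF y) (T.rawE y) = true ∧
      T.sqF y = enc T.BG (T.gtF (T.rawF y)) ∧ T.sqE y = enc T.BH (T.gtE (T.rawE y)) := by
  obtain ⟨_, _, _, ⟨hl, hlE⟩, hr, _, _, _⟩ := T.ok_spec h
  simp only [Tab.fits, Tab.wSide, Bool.and_eq_true, Nat.blt_eq,
    (encSpread_eq T.BF _ _).2, (encProj_eq T.BE _ _).2] at hf
  obtain ⟨⟨⟨⟨⟨f1, f2⟩, e0⟩, e1⟩, e2⟩, e3⟩ := hf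
  have eF : enc T.BF (T.termF y) * enc T.BF (T.termF y) =
      encSpread T.BF T.orbF y * encSpread T.BF T.orbF y := by
    rw [(encSpread_eq T.BF _ _).1]; rfl
  have sF : (T.rawF y).sum = wsum (T.termF y) * wsum (T.termF y) := by
    rw [Tab.rawF, digitsRows_eq, ← enc_mulT, sum_digits_enc, wsum_mulT]
    · intro r hr'
      obtain ⟨p, hp, p', hp', he⟩ := mem_mulT hr'
      rw [he]
      exact (T.vF_mul (T.termF_idx h hp) (T.termF_idx h hp')).2
    · rw [wsum_mulT]; exact f1
  have sE : ∀ z ∈ [0, 1, 2], wsum (T.termE y) * (wsum (T.termE y) + 2 * wsum (T.termP y z))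
      < 2 ^ T.BE → (T.rawE y z).sum =
        wsum (T.termE y) * (wsum (T.termE y) + 2 * wsum (T.termP y z)) := by
    intro z hz hlt
    have e : enc T.BE (T.termE y) * (enc T.BE (T.termE y) + 2 * enc T.BE (T.termP y z)) =
        enc T.BE (mulT (T.termE y) (T.termE y ++ (T.termP y z ++ T.termP y z))) := by
      rw [enc_mulT, enc_append, enc_append, two_mul]
    have ew : wsum (mulT (T.termE y) (T.termE y ++ (T.termP y z ++ T.termP y z))) =
        wsum (T.termE y) * (wsum (T.termE y) + 2 * wsum (T.termP y z)) := by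
      rw [wsum_mulT, wsum_append, wsum_append, two_mul]
    rw [Tab.rawE, e, sum_digits_enc, ew]
    · intro r hr'
      obtain ⟨p, hp, p', hp', he⟩ := mem_mulT hr'
      have := T.termE_idx h hp
      simp only [List.mem_append] at hp'
      have hb : p'.2 ≤ 2 * T.M := by
        rcases hp' with hp' | hp' | hp'
        exacts [T.termE_idx h hp', T.termP_idx h hz hp', T.termP_idx h hz hp']
      rw [he, Tab.S]
      omega
    · rw [ew]; exact hlt
  have s0 := sE 0 (by simp) e0
  have s1 := sE 1 (by simp) e1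
  have s2 := sE 2 (by simp) e2
  refine ⟨?_, ?_, ?_, ?_⟩
  · simp only [Tab.sqFits, Bool.and_eq_true, List.all_eq_true, decide_eq_true_eq]
    refine ⟨f1, fun z hz => ?_⟩
    simp only [List.mem_cons, List.not_mem_nil, or_false] at hz
    rcases hz with rfl | rfl | rfl
    exacts [e0, e1, e2]
  · simp only [Tab.grFits, Bool.and_eq_true, decide_eq_true_eq]
    refine ⟨(wsum_pick_le _ _).trans_lt (sF ▸ f2), lt_of_le_of_lt ?_ e3⟩
    simp only [Tab.gtE, wsum_append]
    refine add_le_add (add_le_add ?_ ?_) ?_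
    exacts [(wsum_pick_le _ _).trans_eq s0, (wsum_pick_le _ _).trans_eq s1,
      (wsum_pick_le _ _).trans_eq s2]
  · rw [Tab.sqF, ← eF, gather_eq T.BF T.BG T.S _ _ hr, hl]
    rfl
  · simp only [Tab.sqE, Tab.sqSide, gatherRow_eq, zero_add, hlE, Tab.gtE, enc_append,
      (encSpread_eq T.BE _ _).1, (encProj_eq T.BE _ _).1]
    rfl

lemma Map.sumRows_eq {P : Map} {S : Tab} (h : S.ok = true) {y : List ℕ} (hf : S.fits y = true)
    (hF : P.rowF.length = S.grpF.length) (hE : P.rowE.length = S.grpE.length) :
    P.sumRows S y = enc P.BT (P.terms S (S.rawF y) (S.rawE y)) ∧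
      P.wSumRows S y = wsum (P.terms S (S.rawF y) (S.rawE y)) := by
  obtain ⟨_, _, e1, e2⟩ := S.fits_spec h hf
  simp only [Map.sumRows, Map.wSumRows, (mapRows_eq _ P.BT _ _).1, (mapRows_eq _ P.BT _ _).2,
    hF, hE, e1, e2, Map.terms, enc_append, wsum_append, Tab.grF, Tab.grE, and_self]

lemma level_of_levelF {Q R : Map} {S T : Tab} (hok : S.ok = true) (hlen : okLen Q R S = true)
    {y y' : List ℕ} (hy : levelF Q R S T y = some y') : level Q R S T y = some y' := by
  simp only [okLen, decide_eq_true_eq] at hlen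
  obtain ⟨l1, l2, l3, l4⟩ := hlen
  unfold levelF at hy
  cases hw : Q.flatF S S y with
  | none => rw [hw] at hy; simp at hy
  | some w =>
    rw [hw] at hy
    change R.chanF S T w = some y' at hy
    unfold Map.flatF at hw
    split_ifs at hw with hc
    simp only [Bool.and_eq_true, Nat.blt_eq] at hc
    obtain ⟨q1, q2, _, _⟩ := S.fits_spec hok hc.1
    obtain ⟨s1, s2⟩ := Map.sumRows_eq (P := Q) hok hc.1 l1 l2
    have hflat : Q.flat S S (S.rawF y) (S.rawE y) = some w := by
      rw [Map.flat, if_pos (by rw [q2, Bool.true_and, decide_eq_true_eq, ← s2]; exact hc.2), ← s1]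
      exact hw
    unfold Map.chanF at hy
    split_ifs at hy with hd
    simp only [Bool.and_eq_true, Nat.blt_eq] at hd
    obtain ⟨r1, r2, g1, g2⟩ := S.fits_spec hok hd.1
    obtain ⟨t1, t2⟩ := Map.sumRows_eq (P := R) hok hd.1 l3 l4
    have hcw : R.cornerF S T w = R.cornerW S T (S.rawF w) (S.rawE w) := by
      rw [Map.cornerF, Map.cornerW, Tab.grLaw, coordSum_append, dotCoord_eq, dotCoord_eq, g1, g2]
      simp [Tab.grF, Tab.grE, Tab.gvF, Tab.gvE]
    have hchan : R.chan S T (S.rawF w) (S.rawE w) = some y' := by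
      have ew : wsum (R.chanTerms S T (S.rawF w) (S.rawE w)) =
          R.cornerF S T w + R.wSumRows S w := by
        rw [hcw, t2, Map.chanTerms]
        simp [wsum]
      have ee : enc R.BT (R.chanTerms S T (S.rawF w) (S.rawE w)) =
          R.cornerF S T w <<< (R.BT * R.tc) + R.sumRows S w := by
        rw [hcw, t1, Map.chanTerms, enc_cons, Nat.shiftLeft_eq]
      rw [Map.chan, if_pos (by rw [r2, Bool.true_and, decide_eq_true_eq, ew]; exact hd.2), ee]
      exact hy
    simp only [level, q1, if_true, hflat, r1, hchan]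

end Vale.Agent.P154.Upgrade
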