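import Vale.Agent.P154.Upgrade.Fast
import Vale.Agent.P154.Upgrade.Levels7
import Vale.Agent.P154.Upgrade.MapI2
import Vale.Agent.P154.Upgrade.MapR2
import Vale.Agent.P154.Upgrade.States4
import Vale.Agent.P154.Upgrade.Tab2

/-!
P154: levels of the computation.
-/

namespace Vale.Agent.P154.Upgrade

theorem levels11_eq :
    levelF mapI2 mapR2 tab2 tab2 state132 = some state133 ∧
    levelF mapI2 mapR2 tab2 tab2 state133 = some state134 ∧
    levelF mapI2 mapR2 tab2 tab2 state134 = some state135 ∧
    levelF mapI2 mapR2 tab2 tab2 state135 = some state136 ∧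
    levelF mapI2 mapR2 tab2 tab2 state136 = some state137 ∧
    levelF mapI2 mapR2 tab2 tab2 state137 = some state138 ∧
    levelF mapI2 mapR2 tab2 tab2 state138 = some state139 ∧
    levelF mapI2 mapR2 tab2 tab2 state139 = some state140 ∧
    levelF mapI2 mapR2 tab2 tab2 state140 = some state141 ∧
    levelF mapI2 mapR2 tab2 tab2 state141 = some state142 ∧
    levelF mapI2 mapR2 tab2 tab2 state142 = some state143 ∧
    levelF mapI2 mapR2 tab2 tab2 state143 = some state144 :=
  ⟨by decide +kernel, by decide +kernel, by decide +kernel, by decide +kernel,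
    by decide +kernel, by decide +kernel, by decide +kernel, by decide +kernel,
    by decide +kernel, by decide +kernel, by decide +kernel, by decide +kernel⟩

end Vale.Agent.P154.Upgrade
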