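import Vale.Agent.P154.Upgrade.Prog
import Vale.Agent.P154.AuxModel

/-!
P154: the upgraded recursion bounds every tree with at most four children at each vertex.
-/

namespace Vale.Agent.P154.Upgrade

open scoped BigOperators ENNReal

/-- At most four children at every vertex. -/
def AtMostFour : (n : ℕ) → Tree n → Prop
  | 0, _ => True
  | n + 1, T => T.1 ≤ 4 ∧ ∀ a, AtMostFour n (T.2 a)

/-- The state `y` bounds all children at depth `n`, seen through the channel. -/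
def Bound (lam : ℝ) (S : Tab) (y : List ℕ) (n : ℕ) : Prop :=
  ∀ T : Tree n, AtMostFour n T →
    Dom (fun τ => chanMap lam (lik 3 lam n T τ)) S.D (S.stLaw y)

lemma Dom.of_sum_le {ι κ : Type} [Fintype ι] [Fintype κ] {v : ι → Fin 3 → ℝ}
    {w : κ → Fin 3 → ℝ} {d : ℕ} {L : Law} (h : Dom v d L)
    (hle : ∀ Ψ, Sublin Ψ → ∑ x, Ψ (w x) ≤ ∑ τ, Ψ (v τ)) : Dom w d L :=
  ⟨h.1, fun Ψ hΨ =>
    (mul_le_mul_of_nonneg_left (hle Ψ hΨ) (Nat.cast_nonneg d)).trans (h.2 Ψ hΨ)⟩

lemma Sublin.sum_le {Ψ : (Fin 3 → ℝ) → ℝ} (hΨ : Sublin Ψ) {ι : Type} (s : Finset ι)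
    (x : ι → Fin 3 → ℝ) (hx : ∀ t i, 0 ≤ x t i) : Ψ (∑ t ∈ s, x t) ≤ ∑ t ∈ s, Ψ (x t) := by
  classical
  induction s using Finset.induction_on with
  | empty =>
    have := hΨ.smul 0 le_rfl (fun _ => 0) fun _ => le_rfl
    simp only [zero_smul, zero_mul] at this
    simp [this]
  | insert a s ha ih =>
    rw [Finset.sum_insert ha, Finset.sum_insert ha]
    refine (hΨ.add _ _ (hx a) fun i => ?_).trans (add_le_add le_rfl ih)
    rw [Finset.sum_apply]
    exact Finset.sum_nonneg fun t _ => hx t i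

/-- A family as above may be replaced by the trivial one. -/
lemma Dom.trivial {ι : Type} [Fintype ι] {v : ι → Fin 3 → ℝ} {d : ℕ} {L : Law} (hb : Balanced v)
    (h : Dom v d L) : Dom (fun _ : Unit => fun _ => (1 : ℝ)) d L :=
  h.of_sum_le fun Ψ hΨ => by
    have e : (fun _ => (1 : ℝ)) = ∑ τ, v τ := funext fun i => by rw [Finset.sum_apply, hb.marg]
    simpa [← e] using hΨ.sum_le Finset.univ v hb.nonneg

lemma balanced_trivial : Balanced fun _ : Unit => fun _ : Fin 3 => (1 : ℝ) :=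
  ⟨fun _ _ => zero_le_one, fun _ => by simp, fun _ => ⟨Equiv.refl _, fun _ _ => rfl⟩⟩

lemma sum_pi_succ {k : ℕ} {ι : Fin (k + 1) → Type} [∀ a, Fintype (ι a)]
    (G : ((a : Fin (k + 1)) → ι a) → ℝ) :
    ∑ τ, G τ = ∑ x, ∑ σ : (a : Fin k) → ι a.succ, G (Fin.cons x σ) := by
  rw [← Equiv.sum_comp (Fin.consEquiv ι) G, Fintype.sum_prod_type]
  rfl

/-- Four families of the given kind bound any product of at most four of them. -/
lemma dom_of_quad {D : ℕ} {M : Law} {lam : ℝ} {g : (Fin 3 → ℝ) → Fin 3 → ℝ}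
    {Good : ∀ (ι : Type) [Fintype ι], (ι → Fin 3 → ℝ) → Prop}
    (hquad : ∀ (A B C E : Type) [Fintype A] [Fintype B] [Fintype C] [Fintype E]
      (a : A → Fin 3 → ℝ) (b : B → Fin 3 → ℝ) (c : C → Fin 3 → ℝ) (e : E → Fin 3 → ℝ),
      Good A a → Good B b → Good C c → Good E e →
      Dom (fun p : (A × B) × (C × E) => g fun i =>
        (a p.1.1 i * b p.1.2 i) * (c p.2.1 i * e p.2.2 i)) D M)
    (h1 : Good Unit fun _ _ => 1) {k : ℕ} (hk : k ≤ 4) {ι : Fin k → Type} [∀ a, Fintype (ι a)]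
    {v : (a : Fin k) → ι a → Fin 3 → ℝ}
    (hv : ∀ a, Good (ι a) fun τ => chanMap lam (v a τ)) :
    Dom (fun τ => g (prodFam lam v τ)) D M := by
  have u := h1
  obtain rfl | rfl | rfl | rfl | rfl : k = 0 ∨ k = 1 ∨ k = 2 ∨ k = 3 ∨ k = 4 := by omega
  ·
    have e : prodFam lam v = fun τ i => ∏ a, chanMap lam (v a (τ a)) i := rfl
    refine (hquad _ _ _ _ _ _ _ _ u u u u).of_sum_le fun Ψ _ => le_of_eq ?_
    simp [Fintype.sum_prod_type, e]
  ·
    have e : prodFam lam v = fun τ i => ∏ a, chanMap lam (v a (τ a)) i := rfl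
    refine (hquad _ _ _ _ _ _ _ _ (hv 0) u u u).of_sum_le fun Ψ _ => le_of_eq ?_
    simp [Fintype.sum_prod_type, e, sum_pi_succ]
  ·
    have e : prodFam lam v = fun τ i => ∏ a, chanMap lam (v a (τ a)) i := rfl
    refine (hquad _ _ _ _ _ _ _ _ (hv 0) (hv 1) u u).of_sum_le fun Ψ _ => le_of_eq ?_
    simp [Fintype.sum_prod_type, e, sum_pi_succ, Fin.prod_univ_succ]
  ·
    have e : prodFam lam v = fun τ i => ∏ a, chanMap lam (v a (τ a)) i := rfl
    refine (hquad _ _ _ _ _ _ _ _ (hv 0) (hv 1) (hv 2) u).of_sum_le fun Ψ _ => le_of_eq ?_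
    simp [Fintype.sum_prod_type, e, sum_pi_succ, Fin.prod_univ_succ, mul_assoc]
    rfl
  ·
    have e : prodFam lam v = fun τ i => ∏ a, chanMap lam (v a (τ a)) i := rfl
    refine (hquad _ _ _ _ _ _ _ _ (hv 0) (hv 1) (hv 2) (hv 3)).of_sum_le fun Ψ _ => le_of_eq ?_
    simp [Fintype.sum_prod_type, e, sum_pi_succ, Fin.prod_univ_succ, mul_assoc]
    rfl

lemma exists_tree : ∀ n, ∃ T : Tree n, AtMostFour n T
  | 0 => ⟨(), trivial⟩
  | n + 1 => ⟨⟨0, fun a => a.elim0⟩, Nat.zero_le 4, fun a => a.elim0⟩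

lemma chanMap_one (lam : ℝ) : chanMap lam (fun _ : Fin 3 => (1 : ℝ)) = fun _ => 1 := by
  funext i
  rw [chanMap_eq]
  simp

/-- The trivial family is bounded as well. -/
lemma Bound.trivial {lam : ℝ} (h0 : -1 / 2 ≤ lam) (h1 : lam ≤ 0) {S : Tab} {y : List ℕ} {n : ℕ}
    (h : Bound lam S y n) : Dom (fun _ : Unit => fun _ => (1 : ℝ)) S.D (S.stLaw y) := by
  obtain ⟨T, hT⟩ := exists_tree n
  exact (h T hT).trivial (Balanced.chan
    (lik_balanced (q := 3) (by norm_num) (by norm_num; linarith) (by linarith) n T).1 h0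
    (by linarith))

lemma Bound.start {lam : ℝ} (h0 : -1 / 2 ≤ lam) (h1 : lam ≤ 0) {R : Map} {S : Tab}
    (hok : (S.ok && R.ok S S t2 && R.okCorner S) = true) {y : List ℕ}
    (hy : Upgrade.start R S = some y) : Bound lam S y 0 := by
  intro T _
  simp only [Bool.and_eq_true] at hok
  refine start_sound hok.1.1 hok.1.2 hok.2 hy h0 h1
    (lik_balanced (q := 3) (by norm_num) (by norm_num; linarith) (by linarith) 0 T).1 ?_
  refine Dom.unit (ι := Obs 3 0 T) (Equiv.refl (Fin 3)) fun j => funext fun i => ?_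
  refine (lik_zero lam T j i).trans ?_
  rcases eq_or_ne i j with h | h
  · exact (if_pos h.symm).trans (if_pos h).symm
  · exact (if_neg fun e => h e.symm).trans (if_neg h).symm

lemma Bound.level {lam : ℝ} (h0 : -1 / 2 ≤ lam) (h1 : lam ≤ 0) {Q R : Map} {S T : Tab}
    (hok : okLevel Q R S T = true) {y y' : List ℕ} (hy : Upgrade.level Q R S T y = some y')
    {n : ℕ} (h : Bound lam S y n) : Bound lam T y' (n + 1) := by
  intro X hX
  rw [show (fun τ => chanMap lam (lik 3 lam (n + 1) X τ)) =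
    fun τ => chanMap lam (prodFam lam (fun a => lik 3 lam n (X.2 a)) τ) from
      funext fun τ => by rw [lik_succ]]
  refine dom_of_quad (g := chanMap lam) (Good := fun ι _ w => Balanced w ∧ Dom w S.D (S.stLaw y)) ?_
    ⟨balanced_trivial, h.trivial h0 h1⟩ hX.1 fun a => ⟨Balanced.chan
      (lik_balanced (q := 3) (by norm_num) (by norm_num; linarith) (by linarith) n (X.2 a)).1 h0
      (by linarith), h (X.2 a) (hX.2 a)⟩
  intro A B C E _ _ _ _ a b c e ha hb hc he
  exact level_sound hok hy h0 h1 ha.1 hb.1 hc.1 he.1 ha.2 hb.2 hc.2 he.2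

end Vale.Agent.P154.Upgrade
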