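import Vale.Agent.P154.Upgrade.Slots

/-!
P154: the computation of one level of the upgraded recursion on a geometric lattice, and its
soundness.
-/

namespace Vale.Agent.P154.Upgrade

open scoped BigOperators

/-- A geometric lattice with its tables.  The step is the sixth power of nn/dd, the range is M. -/
structure Tab where
  /-- numerator -/
  nn : ℕ
  /-- denominator -/
  dd : ℕ
  /-- range -/
  M : ℕ
  /-- target total of the weights -/
  D : ℕ
  /-- digit width of the squares -/
  BF : ℕ
  /-- digit width of the products on the sides -/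
  BE : ℕ
  /-- digit width of the group sums in the interior -/
  BG : ℕ
  /-- digit width of the group sums on the sides -/
  BH : ℕ
  /-- orbits of the range -/
  orbF : List (List ℕ)
  /-- side representatives -/
  ms : List ℕ
  /-- projections to the three sides -/
  proj : List (List (List (ℕ × ℕ)))
  /-- group of each interior position of the doubled range, row by row -/
  gidRows : List (List (Option ℕ))
  /-- group representatives -/
  grpF : List ℕ
  /-- group of each side position of the doubled range -/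
  gidE : List (Option ℕ)
  /-- group representatives -/
  grpE : List ℕ

/-- The stride of the indices. -/
def Tab.S (T : Tab) : ℕ := 4 * T.M + 1

/-- The groups of all interior positions. -/
def Tab.gidF (T : Tab) : List (Option ℕ) := T.gidRows.flatten

/-- An interior lattice vector at range `A` from its two coordinates. -/
def fvec (n d A a b : ℕ) : V :=
  (n ^ (2 * (A + 2 * a - b)) * d ^ (2 * (3 * A + b - 2 * a)),
    n ^ (2 * (A + 2 * b - a)) * d ^ (2 * (3 * A + a - 2 * b)),
    n ^ (2 * (4 * A - a - b)) * d ^ (2 * (a + b)))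

/-- A lattice vector on the side with vanishing first coordinate. -/
def evec0 (n d A m : ℕ) : V :=
  (0, n ^ (3 * m) * d ^ (3 * (2 * A - m)), n ^ (3 * (2 * A - m)) * d ^ (3 * m))

/-- The three sides. -/
def sideOf : ℕ → V → V
  | 0, v => v
  | 1, v => (v.2.2, v.1, v.2.1)
  | _, v => (v.2.1, v.2.2, v.1)

/-- Interior vector of an index. -/
def Tab.vF (T : Tab) (A idx : ℕ) : V := fvec T.nn T.dd A (idx / T.S) (idx % T.S)

/-- Side vector. -/
def Tab.vE (T : Tab) (A z m : ℕ) : V := sideOf z (evec0 T.nn T.dd A m)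

/-- The representatives of the range. -/
def Tab.reps (T : Tab) : List V :=
  T.orbF.map (fun o => T.vF T.M (o.getD 0 0)) ++ T.ms.map (fun m => T.vE T.M 0 m)

/-- The group representatives in the interior. -/
def Tab.gvF (T : Tab) : List V := T.grpF.map fun i => T.vF (2 * T.M) i

/-- The group representatives on the sides. -/
def Tab.gvE (T : Tab) : List V := T.grpE.map fun m => T.vE (2 * T.M) 0 m

/-- The law of a state. -/
def Tab.stLaw (T : Tab) (y : List ℕ) : Law := sym (y.zip T.reps)

/-- Validity of an interior index at range `A`. -/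
def Tab.okIdx (T : Tab) (A idx : ℕ) : Bool :=
  decide (idx / T.S ≤ 2 * A ∧ idx % T.S ≤ 2 * A ∧ idx % T.S ≤ A + 2 * (idx / T.S) ∧
    2 * (idx / T.S) ≤ 3 * A + idx % T.S ∧ idx / T.S ≤ A + 2 * (idx % T.S) ∧
    2 * (idx % T.S) ≤ 3 * A + idx / T.S ∧ idx / T.S + idx % T.S ≤ 4 * A)

/-- One projection entry: `c` times the side vector is below the interior vector. -/
def Tab.okProj (T : Tab) (z idx : ℕ) (cm : ℕ × ℕ) : Bool :=
  decide (cm.2 ≤ 2 * T.M ∧
    cm.1 * (T.vE T.M z cm.2).1 ≤ (T.vF T.M idx).1 ∧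
    cm.1 * (T.vE T.M z cm.2).2.1 ≤ (T.vF T.M idx).2.1 ∧
    cm.1 * (T.vE T.M z cm.2).2.2 ≤ (T.vF T.M idx).2.2)

/-- The group of every position is correct. -/
def okPick (f : ℕ → V) (gv : List V) : ℕ → List (Option ℕ) → Bool
  | _, [] => true
  | i, none :: gs => okPick f gv (i + 1) gs
  | i, some g :: gs =>
    decide (g < gv.length ∧ f i ∈ perms6 (gv.getD g (0, 0, 0))) && okPick f gv (i + 1) gs

/-- Selection of positions by group. -/
def pick : List (Option ℕ) → List ℕ → List (ℕ × ℕ)
  | none :: gs, _ :: ws => pick gs ws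
  | some g :: gs, w :: ws => (w, g) :: pick gs ws
  | _, _ => []

/-- The checks on the tables. -/
def Tab.ok (T : Tab) : Bool :=
  (T.orbF.all fun o => o.all (T.okIdx T.M) &&
    decide (o.map (T.vF T.M) = perms6 (T.vF T.M (o.getD 0 0)))) &&
  (T.ms.all fun m => decide (m ≤ 2 * T.M)) &&
  ([0, 1, 2].all fun z => decide (T.orbF.length = (T.proj.getD z []).length) &&
    (T.orbF.zip (T.proj.getD z [])).all fun op => decide (op.1.length = op.2.length) &&
      (op.1.zip op.2).all fun ic => T.okProj z ic.1 ic.2) &&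
  decide (T.gidRows.length = T.S ∧ T.gidE.length = T.S) &&
  (T.gidRows.all fun r => decide (r.length = T.S)) &&
  decide (0 < T.D) &&
  okPick (T.vF (2 * T.M)) T.gvF 0 T.gidF &&
  [0, 1, 2].all fun z => okPick (T.vE (2 * T.M) z) T.gvE 0 T.gidE

/-- The side orbits of the range. -/
def Tab.orbE (T : Tab) : List (List ℕ) := T.ms.map fun m => [m, 2 * T.M - m]

/-- The terms of weights spread over lists of indices. -/
def spread (y : List ℕ) (os : List (List ℕ)) : List (ℕ × ℕ) :=
  (y.zip os).flatMap fun wo => wo.2.map fun i => (wo.1, i)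

/-- Interior terms of a state. -/
def Tab.termF (T : Tab) (y : List ℕ) : List (ℕ × ℕ) := spread y T.orbF

/-- Side terms of a state. -/
def Tab.termE (T : Tab) (y : List ℕ) : List (ℕ × ℕ) := spread (y.drop T.orbF.length) T.orbE

/-- Projected terms of a state. -/
def Tab.termP (T : Tab) (y : List ℕ) (z : ℕ) : List (ℕ × ℕ) :=
  (y.zip (T.proj.getD z [])).flatMap fun wp => wp.2.map fun cm => (wp.1 * cm.1, cm.2)

/-- The slots of a squared state in the interior. -/
def Tab.rawF (T : Tab) (y : List ℕ) : List ℕ :=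
  digitsRows T.BF T.S T.S (enc T.BF (T.termF y) * enc T.BF (T.termF y))

/-- The slots of a squared state on a side. -/
def Tab.rawE (T : Tab) (y : List ℕ) (z : ℕ) : List ℕ :=
  digits T.BE T.S
    (enc T.BE (T.termE y) * (enc T.BE (T.termE y) + 2 * enc T.BE (T.termP y z)))

/-- No digit overflows in a square. -/
def Tab.sqFits (T : Tab) (y : List ℕ) : Bool :=
  decide (wsum (T.termF y) * wsum (T.termF y) < 2 ^ T.BF) &&
  [0, 1, 2].all fun z =>
    decide (wsum (T.termE y) * (wsum (T.termE y) + 2 * wsum (T.termP y z)) < 2 ^ T.BE)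

/-- The group terms in the interior. -/
def Tab.gtF (T : Tab) (rF : List ℕ) : List (ℕ × ℕ) := pick T.gidF rF

/-- The group terms on the sides. -/
def Tab.gtE (T : Tab) (rE : ℕ → List ℕ) : List (ℕ × ℕ) :=
  pick T.gidE (rE 0) ++ pick T.gidE (rE 1) ++ pick T.gidE (rE 2)

/-- The group weights in the interior. -/
def Tab.grF (T : Tab) (rF : List ℕ) : List ℕ := digits T.BG T.grpF.length (enc T.BG (T.gtF rF))

/-- The group weights on the sides. -/
def Tab.grE (T : Tab) (rE : ℕ → List ℕ) : List ℕ :=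
  digits T.BH T.grpE.length (enc T.BH (T.gtE rE))

/-- No digit overflows in the group sums. -/
def Tab.grFits (T : Tab) (rF : List ℕ) (rE : ℕ → List ℕ) : Bool :=
  decide (wsum (T.gtF rF) < 2 ^ T.BG) && decide (wsum (T.gtE rE) < 2 ^ T.BH)

/-- The weighted vectors of the groups. -/
def Tab.grLaw (T : Tab) (rF : List ℕ) (rE : ℕ → List ℕ) : Law :=
  (T.grF rF).zip T.gvF ++ (T.grE rE).zip T.gvE

/-- A table of splittings from the doubled range to a range. -/
structure Map where
  /-- digit width -/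
  BT : ℕ
  /-- rows for the interior groups -/
  rowF : List (List (ℕ × ℕ × ℕ))
  /-- rows for the side groups -/
  rowE : List (List (ℕ × ℕ × ℕ))
  /-- the target of the corners -/
  tc : ℕ

/-- A chosen rearrangement. -/
def tau (t : ℕ) (v : V) : V := (perms6 v).getD t v

/-- The targets of a row. -/
def rowTargets (reps : List V) (w : ℕ) (row : List (ℕ × ℕ × ℕ)) : Law :=
  row.map fun e => (w * e.1, tau e.2.1 (reps.getD e.2.2 (0, 0, 0)))

/-- A row is a splitting of its source. -/
def okRow (reps : List V) (src : V) (row : List (ℕ × ℕ × ℕ)) : Bool :=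
  (row.all fun e => decide (e.2.2 < reps.length)) &&
  decide (tot (rowTargets reps 1 row) 0 ≤ src.1 ∧ tot (rowTargets reps 1 row) 1 ≤ src.2.1 ∧
    tot (rowTargets reps 1 row) 2 ≤ src.2.2)

/-- The checks on a map; `f` is the vector map applied to the sources. -/
def Map.ok (P : Map) (S T : Tab) (f : V → V) : Bool :=
  ((S.gvF.zip P.rowF).all fun gr => okRow T.reps (f gr.1) gr.2) &&
  (S.gvE.zip P.rowE).all fun gr => okRow T.reps (f gr.1) gr.2

/-- The check on the target of the corners. -/
def Map.okCorner (P : Map) (T : Tab) : Bool :=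
  decide (P.tc < T.reps.length ∧ T.reps.getD P.tc (0, 0, 0) =
    (0, (T.reps.getD P.tc (0, 0, 0)).2.1, (T.reps.getD P.tc (0, 0, 0)).2.1) ∧
    0 < (T.reps.getD P.tc (0, 0, 0)).2.1)

/-- The scattered terms of the rows. -/
def scatter (ws : List ℕ) (rows : List (List (ℕ × ℕ × ℕ))) : List (ℕ × ℕ) :=
  (ws.zip rows).flatMap fun wr => wr.2.map fun e => (wr.1 * e.1, e.2.2)

/-- The scattered terms of all groups. -/
def Map.terms (P : Map) (S : Tab) (rF : List ℕ) (rE : ℕ → List ℕ) : List (ℕ × ℕ) :=
  scatter (S.grF rF) P.rowF ++ scatter (S.grE rE) P.rowE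

/-- The sum of the coordinates weighted by the weights. -/
def coordSum (L : Law) : ℕ := (L.map fun p => p.1 * (p.2.1 + p.2.2.1 + p.2.2.2)).sum

/-- The weight received from the corners. -/
def Map.cornerW (P : Map) (S T : Tab) (rF : List ℕ) (rE : ℕ → List ℕ) : ℕ :=
  (6 * (S.D * S.D) - 2 * coordSum (S.grLaw rF rE)) / (2 * (T.reps.getD P.tc (0, 0, 0)).2.1)

/-- A splitting without the channel. -/
def Map.flat (P : Map) (S T : Tab) (rF : List ℕ) (rE : ℕ → List ℕ) : Option (List ℕ) :=
  if S.grFits rF rE && decide (wsum (P.terms S rF rE) < 2 ^ P.BT) then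
    some ((digits P.BT T.reps.length (enc P.BT (P.terms S rF rE))).map
      fun w => w * T.D / (6 * (S.D * S.D)))
  else none

/-- All terms of a splitting through the channel. -/
def Map.chanTerms (P : Map) (S T : Tab) (rF : List ℕ) (rE : ℕ → List ℕ) : List (ℕ × ℕ) :=
  (P.cornerW S T rF rE, P.tc) :: P.terms S rF rE

/-- A splitting through the channel. -/
def Map.chan (P : Map) (S T : Tab) (rF : List ℕ) (rE : ℕ → List ℕ) : Option (List ℕ) :=
  if S.grFits rF rE && decide (wsum (P.chanTerms S T rF rE) < 2 ^ P.BT) then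
    some ((digits P.BT T.reps.length (enc P.BT (P.chanTerms S T rF rE))).map
      fun w => w * T.D / (2 * (6 * (S.D * S.D))))
  else none

/-- One level: square, split, square, split through the channel into the next lattice. -/
def level (Q R : Map) (S T : Tab) (y : List ℕ) : Option (List ℕ) :=
  if S.sqFits y then
    match Q.flat S S (S.rawF y) (S.rawE y) with
    | some w => if S.sqFits w then R.chan S T (S.rawF w) (S.rawE w) else none
    | none => none
  else none

/-- The leaves seen through the channel. -/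
def start (R : Map) (S : Tab) : Option (List ℕ) := R.chan S S [] fun _ => []

/-! ### Soundness -/

lemma fvec_mul {n d A A' a a' b b' : ℕ} (h1 : b ≤ A + 2 * a) (h1' : b' ≤ A' + 2 * a')
    (h2 : 2 * a ≤ 3 * A + b) (h2' : 2 * a' ≤ 3 * A' + b') (h3 : a ≤ A + 2 * b)
    (h3' : a' ≤ A' + 2 * b') (h4 : 2 * b ≤ 3 * A + a) (h4' : 2 * b' ≤ 3 * A' + a')
    (h5 : a + b ≤ 4 * A) (h5' : a' + b' ≤ 4 * A') :
    vmul (fvec n d A a b) (fvec n d A' a' b') = fvec n d (A + A') (a + a') (b + b') := by
  have key : ∀ x y x' y' X Y : ℕ, x + x' = X → y + y' = Y →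
      n ^ x * d ^ y * (n ^ x' * d ^ y') = n ^ X * d ^ Y := by
    intro x y x' y' X Y hX hY
    rw [mul_mul_mul_comm, ← pow_add, ← pow_add, hX, hY]
  simp only [vmul, fvec, Prod.mk.injEq]
  exact ⟨key _ _ _ _ _ _ (by omega) (by omega), key _ _ _ _ _ _ (by omega) (by omega),
    key _ _ _ _ _ _ (by omega) (by omega)⟩

lemma vmul_sideOf (z : ℕ) (v w : V) : vmul (sideOf z v) (sideOf z w) = sideOf z (vmul v w) := by
  match z with
  | 0 => rfl
  | 1 => rfl
  | _ + 2 => rfl

lemma evec0_mul {n d A A' m m' : ℕ} (h : m ≤ 2 * A) (h' : m' ≤ 2 * A') :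
    vmul (evec0 n d A m) (evec0 n d A' m') = evec0 n d (A + A') (m + m') := by
  have key : ∀ x y x' y' X Y : ℕ, x + x' = X → y + y' = Y →
      n ^ x * d ^ y * (n ^ x' * d ^ y') = n ^ X * d ^ Y := by
    intro x y x' y' X Y hX hY
    rw [mul_mul_mul_comm, ← pow_add, ← pow_add, hX, hY]
  simp only [vmul, evec0, Prod.mk.injEq]
  exact ⟨trivial, key _ _ _ _ _ _ (by omega) (by omega), key _ _ _ _ _ _ (by omega) (by omega)⟩

lemma perms6_evec0 (T : Tab) {m : ℕ} (hm : m ≤ 2 * T.M) :
    perms6 (T.vE T.M 0 m) = [T.vE T.M 0 m, T.vE T.M 0 (2 * T.M - m), T.vE T.M 1 m,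
      T.vE T.M 1 (2 * T.M - m), T.vE T.M 2 m, T.vE T.M 2 (2 * T.M - m)] := by
  have e : 2 * T.M - (2 * T.M - m) = m := by omega
  simp only [perms6, Tab.vE, sideOf, evec0, e]

lemma zip_append_right {α β : Type} : ∀ (y : List α) (A B : List β),
    y.zip (A ++ B) = y.zip A ++ (y.drop A.length).zip B
  | y, [], B => by simp
  | [], _ :: _, B => by simp
  | a :: y, b :: A, B => by simp [zip_append_right y A B]

lemma sym_flatMap {α : Type} (l : List α) (g : α → Law) :
    sym (l.flatMap g) = l.flatMap fun a => sym (g a) := by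
  induction l with
  | nil => rfl
  | cons a l ih => rw [List.flatMap_cons, sym_append, ih, List.flatMap_cons]

lemma cov_mul_split (A B C : Law) :
    ∀ Ψ, val Ψ (mulLaw A (B ++ C)) = val Ψ (mulLaw A B) + val Ψ (mulLaw A C) := fun Ψ => by
  rw [val_mulLaw_comm, show mulLaw (B ++ C) A = mulLaw B A ++ mulLaw C A from List.flatMap_append,
    val_append, val_mulLaw_comm Ψ B A, val_mulLaw_comm Ψ C A]

lemma val_mul_split_left (A B C : Law) (Ψ : (Fin 3 → ℝ) → ℝ) :
    val Ψ (mulLaw (A ++ B) C) = val Ψ (mulLaw A C) + val Ψ (mulLaw B C) := by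
  rw [show mulLaw (A ++ B) C = mulLaw A C ++ mulLaw B C from List.flatMap_append, val_append]

/-- The pieces kept from a square. -/
lemma cov_square (F E0 E1 E2 : Law) :
    Cov (mulLaw (F ++ (E0 ++ (E1 ++ E2))) (F ++ (E0 ++ (E1 ++ E2))))
      (mulLaw F F ++ (mulLaw E0 (E0 ++ (F ++ F)) ++ (mulLaw E1 (E1 ++ (F ++ F)) ++
        mulLaw E2 (E2 ++ (F ++ F))))) := by
  refine Cov.trans_append_left (H := mulLaw E0 (E1 ++ E2) ++ (mulLaw E1 (E0 ++ E2) ++
    mulLaw E2 (E0 ++ E1))) (cov_of_val fun Ψ => ?_)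
  simp only [val_append, cov_mul_split, val_mul_split_left]
  rw [val_mulLaw_comm Ψ F E0, val_mulLaw_comm Ψ F E1, val_mulLaw_comm Ψ F E2]
  ring

lemma perms6_self (v : V) : v ∈ perms6 v := by simp [perms6]

lemma tau_mem (t : ℕ) (v : V) : tau t v ∈ perms6 v := by
  unfold tau
  match t with
  | 0 | 1 | 2 | 3 | 4 | 5 => simp [perms6]
  | _ + 6 => simp [perms6]

lemma cov_of_tot_le {w : ℕ} {v : V} {G : Law} (h : ∀ i, tot G i ≤ w * crd v i) :
    Cov [(w, v)] G := cov_split h

lemma Cov.map_sym {L G : Law} (h : Cov L G) : Cov (Upgrade.sym L) (Upgrade.sym G) := h.sym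

variable {T : Tab}

lemma Tab.ok_spec (h : T.ok = true) :
    (∀ o ∈ T.orbF, (∀ i ∈ o, T.okIdx T.M i = true) ∧
      o.map (T.vF T.M) = perms6 (T.vF T.M (o.getD 0 0))) ∧
    (∀ m ∈ T.ms, m ≤ 2 * T.M) ∧
    (∀ z ∈ [0, 1, 2], T.orbF.length = (T.proj.getD z []).length ∧
      ∀ op ∈ T.orbF.zip (T.proj.getD z []), op.1.length = op.2.length ∧
        ∀ ic ∈ op.1.zip op.2, T.okProj z ic.1 ic.2 = true) ∧
    (T.gidRows.length = T.S ∧ T.gidE.length = T.S) ∧
    (∀ r ∈ T.gidRows, r.length = T.S) ∧ 0 < T.D ∧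
    okPick (T.vF (2 * T.M)) T.gvF 0 T.gidF = true ∧
    ∀ z ∈ [0, 1, 2], okPick (T.vE (2 * T.M) z) T.gvE 0 T.gidE = true := by
  simp only [Tab.ok, Bool.and_eq_true, List.all_eq_true, decide_eq_true_eq] at h
  obtain ⟨⟨⟨⟨⟨⟨⟨a, b⟩, c⟩, d⟩, e⟩, f⟩, g⟩, k⟩ := h
  exact ⟨a, b, c, d, e, f, g, k⟩

lemma Tab.ok_orb (h : T.ok = true) {o : List ℕ} (ho : o ∈ T.orbF) :
    (∀ i ∈ o, T.okIdx T.M i = true) ∧ o.map (T.vF T.M) = perms6 (T.vF T.M (o.getD 0 0)) :=
  (T.ok_spec h).1 o ho

lemma Tab.ok_ms (h : T.ok = true) {m : ℕ} (hm : m ∈ T.ms) : m ≤ 2 * T.M := (T.ok_spec h).2.1 m hm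

lemma Tab.ok_D (h : T.ok = true) : 0 < T.D := (T.ok_spec h).2.2.2.2.2.1

lemma Tab.ok_pickF (h : T.ok = true) : okPick (T.vF (2 * T.M)) T.gvF 0 T.gidF = true :=
  (T.ok_spec h).2.2.2.2.2.2.1

lemma Tab.ok_pickE (h : T.ok = true) {z : ℕ} (hz : z ∈ [0, 1, 2]) :
    okPick (T.vE (2 * T.M) z) T.gvE 0 T.gidE = true :=
  (T.ok_spec h).2.2.2.2.2.2.2 z hz

lemma Tab.stLaw_cov (h : T.ok = true) (y : List ℕ) :
    Cov (T.stLaw y) (law (T.vF T.M) (T.termF y) ++ (law (T.vE T.M 0) (T.termE y) ++
      (law (T.vE T.M 1) (T.termE y) ++ law (T.vE T.M 2) (T.termE y)))) := by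
  have hF : ∀ (os : List (List ℕ)) (ws : List ℕ), (∀ o ∈ os, o ∈ T.orbF) →
      sym (ws.zip (os.map fun o => T.vF T.M (o.getD 0 0))) =
        law (T.vF T.M) ((ws.zip os).flatMap fun wo => wo.2.map fun i => (wo.1, i)) := by
    intro os
    induction os with
    | nil => intro ws _; simp [sym, law]
    | cons o os ih =>
      intro ws hs
      cases ws with
      | nil => simp [sym, law]
      | cons w ws =>
        rw [List.map_cons, List.zip_cons_cons, List.zip_cons_cons, sym_cons, List.flatMap_cons,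
          law_append, ih ws fun o' ho' => hs o' (List.mem_cons_of_mem _ ho')]
        congr 1
        rw [← (T.ok_orb h (hs o List.mem_cons_self)).2]
        simp only [law, List.map_map]
        rfl
  refine cov_of_val fun Ψ => ?_
  rw [Tab.stLaw, Tab.reps, zip_append_right, sym_append, val_append, List.length_map,
    hF T.orbF y fun _ ho => ho, val_append]
  congr 1
  simp only [val_append, Tab.termE, Tab.orbE, spread]
  generalize y.drop T.orbF.length = ws
  have hm := fun m => T.ok_ms h (m := m)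
  generalize T.ms = ms at hm
  induction ms generalizing ws with
  | nil => simp [sym, law]
  | cons m ms ih =>
    cases ws with
    | nil => simp [sym, law]
    | cons w ws =>
      rw [List.map_cons, List.map_cons, List.zip_cons_cons, List.zip_cons_cons, sym_cons, val_append,
        ih ws fun m' hm' => hm m' (List.mem_cons_of_mem _ hm'), perms6_evec0 T (hm m List.mem_cons_self)]
      simp only [List.flatMap_cons, law, List.map_cons, List.map_nil, List.cons_append,
        List.nil_append, val_cons, val_nil]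
      ring

lemma Tab.okIdx_iff {A idx : ℕ} (h : T.okIdx A idx = true) :
    idx / T.S ≤ 2 * A ∧ idx % T.S ≤ 2 * A ∧ idx % T.S ≤ A + 2 * (idx / T.S) ∧
    2 * (idx / T.S) ≤ 3 * A + idx % T.S ∧ idx / T.S ≤ A + 2 * (idx % T.S) ∧
    2 * (idx % T.S) ≤ 3 * A + idx / T.S ∧ idx / T.S + idx % T.S ≤ 4 * A := by
  simpa [Tab.okIdx] using h

lemma Tab.vF_mul {i j : ℕ} (hi : T.okIdx T.M i = true) (hj : T.okIdx T.M j = true) :
    vmul (T.vF T.M i) (T.vF T.M j) = T.vF (2 * T.M) (i + j) ∧ i + j < T.S * T.S := by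
  obtain ⟨a1, a2, a3, a4, a5, a6, a7⟩ := T.okIdx_iff hi
  obtain ⟨b1, b2, b3, b4, b5, b6, b7⟩ := T.okIdx_iff hj
  have hS : 0 < T.S := Nat.succ_pos _
  have hlt : i % T.S + j % T.S < T.S := by unfold Tab.S at *; omega
  have ed : (i + j) / T.S = i / T.S + j / T.S := by
    rw [Nat.add_div hS, if_neg (by omega)]; omega
  have em : (i + j) % T.S = i % T.S + j % T.S := by
    rw [Nat.add_mod, Nat.mod_eq_of_lt hlt]
  refine ⟨?_, ?_⟩
  · simp only [Tab.vF, ed, em, two_mul T.M]
    exact fvec_mul a3 b3 a4 b4 a5 b5 a6 b6 a7 b7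
  · have hle : i / T.S + j / T.S + 1 ≤ T.S := by unfold Tab.S at *; omega
    calc i + j = T.S * ((i + j) / T.S) + (i + j) % T.S := (Nat.div_add_mod _ _).symm
      _ < T.S * ((i + j) / T.S) + T.S := by
        have := Nat.mod_lt (i + j) hS
        omega
      _ = T.S * ((i + j) / T.S + 1) := by ring
      _ ≤ T.S * T.S := Nat.mul_le_mul_left _ (by rw [ed]; exact hle)

lemma Tab.termF_idx (h : T.ok = true) {y : List ℕ} {p : ℕ × ℕ} (hp : p ∈ T.termF y) :
    T.okIdx T.M p.2 = true := by
  simp only [Tab.termF, spread, List.mem_flatMap, List.mem_map] at hp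
  obtain ⟨wo, hwo, i, hi, rfl⟩ := hp
  exact (T.ok_orb h (List.of_mem_zip hwo).2).1 i hi

lemma Tab.termE_idx (h : T.ok = true) {y : List ℕ} {p : ℕ × ℕ} (hp : p ∈ T.termE y) :
    p.2 ≤ 2 * T.M := by
  simp only [Tab.termE, spread, List.mem_flatMap, List.mem_map] at hp
  obtain ⟨wo, hwo, i, hi, rfl⟩ := hp
  have h2 := (List.of_mem_zip hwo).2
  simp only [Tab.orbE, List.mem_map] at h2
  obtain ⟨m, hm, he⟩ := h2
  rw [← he] at hi
  simp only [List.mem_cons, List.not_mem_nil, or_false] at hi
  rcases hi with rfl | rfl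
  · exact T.ok_ms h hm
  · exact Nat.sub_le _ _

lemma exists_zip_left {α β : Type} : ∀ (as : List α) (bs : List β), as.length = bs.length →
    ∀ b ∈ bs, ∃ a, (a, b) ∈ as.zip bs
  | [], [], _, b, hb => by simp at hb
  | [], _ :: _, hl, _, _ => by simp at hl
  | _ :: _, [], hl, _, _ => by simp at hl
  | a :: as, c :: bs, hl, b, hb => by
    simp only [List.mem_cons] at hb
    rcases hb with rfl | hb
    · exact ⟨a, by simp⟩
    · obtain ⟨x, hx⟩ := exists_zip_left as bs (by simpa using hl) b hb
      exact ⟨x, List.mem_cons_of_mem _ hx⟩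

lemma Tab.termP_idx (h : T.ok = true) {y : List ℕ} {z : ℕ} (hz : z ∈ [0, 1, 2]) {p : ℕ × ℕ}
    (hp : p ∈ T.termP y z) : p.2 ≤ 2 * T.M := by
  simp only [Tab.termP, List.mem_flatMap, List.mem_map] at hp
  obtain ⟨wp, hwp, cm, hcm, rfl⟩ := hp
  obtain ⟨hlen, hall⟩ := (T.ok_spec h).2.2.1 z hz
  obtain ⟨o, ho⟩ := exists_zip_left _ _ hlen _ (List.of_mem_zip hwp).2
  obtain ⟨hlen', hall'⟩ := hall _ ho
  obtain ⟨i, hi⟩ := exists_zip_left _ _ hlen' _ hcm
  have := hall' _ hi
  simp only [Tab.okProj, decide_eq_true_eq] at this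
  exact this.1

lemma Tab.proj_cov (h : T.ok = true) (y : List ℕ) {z : ℕ} (hz : z ∈ [0, 1, 2]) :
    Cov (law (T.vF T.M) (T.termF y)) (law (T.vE T.M z) (T.termP y z)) := by
  obtain ⟨hlen, hp⟩ := (T.ok_spec h).2.2.1 z hz
  unfold Tab.termF Tab.termP spread
  generalize T.orbF = os at hp hlen
  generalize T.proj.getD z [] = ps at hp hlen
  induction y generalizing os ps with
  | nil => exact Cov.refl []
  | cons w y ih =>
    match os, ps with
    | [], [] => simpa [law] using Cov.refl []
    | [], _ :: _ => simp at hlen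
    | _ :: _, [] => simp at hlen
    | o :: os, pr :: ps =>
      simp only [List.zip_cons_cons, List.flatMap_cons, law_append]
      refine Cov.append ?_ (ih os ps (fun op ho => hp op (List.mem_cons_of_mem _ ho))
        (by simpa using hlen))
      obtain ⟨hlo, hq⟩ := hp (o, pr) List.mem_cons_self
      clear ih hp hlen
      induction o generalizing pr with
      | nil =>
        match pr with
        | [] => simpa [law] using Cov.refl []
        | _ :: _ => simp at hlo
      | cons i o iho =>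
        match pr with
        | [] => simp at hlo
        | cm :: pr =>
          have h1 : Cov [(w, T.vF T.M i)] [(w * cm.1, T.vE T.M z cm.2)] := by
            have := hq (i, cm) List.mem_cons_self
            simp only [Tab.okProj, decide_eq_true_eq] at this
            refine cov_split fun l => ?_
            simp only [tot_cons, tot_nil, add_zero, mul_assoc]
            refine Nat.mul_le_mul_left _ ?_
            fin_cases l
            exacts [this.2.1, this.2.2.1, this.2.2.2]
          exact h1.append (iho pr (by simpa using hlo)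
            fun ic hic => hq ic (List.mem_cons_of_mem _ hic))

/-- The raw law of a square. -/
def Tab.rawLaw (T : Tab) (rF : List ℕ) (rE : ℕ → List ℕ) : Law :=
  dense (T.vF (2 * T.M)) rF ++ (dense (T.vE (2 * T.M) 0) (rE 0) ++
    (dense (T.vE (2 * T.M) 1) (rE 1) ++ dense (T.vE (2 * T.M) 2) (rE 2)))

lemma Tab.cov_sq (h : T.ok = true) {y : List ℕ} (hf : T.sqFits y = true) :
    Cov (mulLaw (T.stLaw y) (T.stLaw y)) (T.rawLaw (T.rawF y) (T.rawE y)) := by
  simp only [Tab.sqFits, Bool.and_eq_true, List.all_eq_true, decide_eq_true_eq] at hf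
  refine ((T.stLaw_cov h y).mul (T.stLaw_cov h y)).trans ((cov_square _ _ _ _).trans ?_)
  have hside : ∀ z ∈ [0, 1, 2],
      Cov (mulLaw (law (T.vE T.M z) (T.termE y)) (law (T.vE T.M z) (T.termE y) ++
          (law (T.vF T.M) (T.termF y) ++ law (T.vF T.M) (T.termF y))))
        (dense (T.vE (2 * T.M) z) (T.rawE y z)) := by
    intro z hz
    have hP := T.proj_cov h y hz
    refine (((Cov.refl _).append (hP.append hP)).mul_left _).trans ?_
    rw [← law_append, ← law_append]
    have hb : ∀ p ∈ T.termE y ++ (T.termP y z ++ T.termP y z), p.2 ≤ 2 * T.M := by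
      intro p hp
      simp only [List.mem_append] at hp
      rcases hp with hp | hp | hp
      · exact T.termE_idx h hp
      · exact T.termP_idx h hz hp
      · exact T.termP_idx h hz hp
    rw [law_mulT (h := T.vE (2 * T.M) z) fun p hp p' hp' => by
      rw [Tab.vE, Tab.vE, vmul_sideOf, evec0_mul (T.termE_idx h hp) (hb p' hp'), ← two_mul]
      rfl]
    have e : enc T.BE (T.termE y) * (enc T.BE (T.termE y) + 2 * enc T.BE (T.termP y z)) =
        enc T.BE (mulT (T.termE y) (T.termE y ++ (T.termP y z ++ T.termP y z))) := by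
      rw [enc_mulT, enc_append, enc_append, two_mul]
    rw [Tab.rawE, e]
    refine cov_digits _ (fun r hr => ?_) ?_
    · obtain ⟨p, hp, p', hp', he⟩ := mem_mulT hr
      have := T.termE_idx h hp
      have := hb p' hp'
      rw [he, Tab.S]
      omega
    · rw [wsum_mulT, wsum_append, wsum_append, ← two_mul]
      exact hf.2 z hz
  refine Cov.append ?_ ((hside 0 (by simp)).append ((hside 1 (by simp)).append (hside 2 (by simp))))
  rw [law_mulT (h := T.vF (2 * T.M)) fun p hp p' hp' =>
    (T.vF_mul (T.termF_idx h hp) (T.termF_idx h hp')).1, Tab.rawF, digitsRows_eq, ← enc_mulT]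
  refine cov_digits _ (fun r hr => ?_) (by rw [wsum_mulT]; exact hf.1)
  obtain ⟨p, hp, p', hp', he⟩ := mem_mulT hr
  rw [he]
  exact (T.vF_mul (T.termF_idx h hp) (T.termF_idx h hp')).2

lemma pick_cov (f : ℕ → V) (gv : List V) : ∀ (gs : List (Option ℕ)) (ws : List ℕ) (i : ℕ),
    okPick f gv i gs = true →
    Cov (sym (dense (fun j => f (i + j)) ws))
      (sym (law (fun g => gv.getD g (0, 0, 0)) (pick gs ws))) ∧ ∀ p ∈ pick gs ws, p.2 < gv.length
  | [], ws, _, _ => by
    refine ⟨?_, by simp [pick]⟩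
    simpa [pick, law, sym] using cov_nil _
  | _ :: _, [], _, _ => ⟨by simpa [pick, law, dense, sym] using Cov.refl [], by simp [pick]⟩
  | none :: gs, w :: ws, i, h => by
    obtain ⟨hc, hm⟩ := pick_cov f gv gs ws (i + 1) (by simpa [okPick] using h)
    refine ⟨?_, by simpa [pick] using hm⟩
    have e : (fun j => f (i + (j + 1))) = fun j => f (i + 1 + j) :=
      funext fun j => congrArg f (by omega)
    rw [dense, pick, sym_cons, e]
    simpa using (cov_nil _).append hc
  | some g :: gs, w :: ws, i, h => by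
    simp only [okPick, Bool.and_eq_true, decide_eq_true_eq] at h
    obtain ⟨hc, hm⟩ := pick_cov f gv gs ws (i + 1) h.2
    refine ⟨?_, fun p hp => ?_⟩
    · have e : (fun j => f (i + (j + 1))) = fun j => f (i + 1 + j) :=
        funext fun j => congrArg f (by omega)
      rw [dense, pick, sym_cons, e, law, List.map_cons, sym_cons, add_zero]
      refine Cov.append (cov_of_val fun Ψ => ?_) hc
      have := symV_eq_of_mem h.1.2 Ψ
      simp only [symV, perms6, List.map_cons, List.map_nil, List.sum_cons, List.sum_nil] at this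
      simp only [val, perms6, List.map_cons, List.map_nil, List.sum_cons, List.sum_nil]
      linear_combination (w : ℝ) * this
    · simp only [pick, List.mem_cons] at hp
      rcases hp with rfl | hp
      · exact h.1.1
      · exact hm p hp

lemma dense_eq_zip : ∀ (ws : List ℕ) (vs : List V), ws.length ≤ vs.length →
    dense (fun g => vs.getD g (0, 0, 0)) ws = ws.zip vs
  | [], _, _ => rfl
  | _ :: _, [], h => by simp at h
  | w :: ws, v :: vs, h => by
    rw [dense, List.zip_cons_cons, ← dense_eq_zip ws vs (by simpa using h)]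
    rfl

lemma digits_length (B : ℕ) : ∀ n x, (digits B n x).length = n
  | 0, _ => rfl
  | n + 1, x => by rw [digits, List.length_cons, digits_length B n]

lemma cov_digits_zip {B : ℕ} {t : List (ℕ × ℕ)} (vs : List V) (hn : ∀ p ∈ t, p.2 < vs.length)
    (hB : wsum t < 2 ^ B) :
    Cov (law (fun g => vs.getD g (0, 0, 0)) t) ((digits B vs.length (enc B t)).zip vs) := by
  rw [← dense_eq_zip _ vs (digits_length _ _ _).le]
  exact cov_digits _ hn hB

lemma Tab.gr_cov (h : T.ok = true) {rF : List ℕ} {rE : ℕ → List ℕ}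
    (hf : T.grFits rF rE = true) : Cov (sym (T.rawLaw rF rE)) (sym (T.grLaw rF rE)) := by
  simp only [Tab.grFits, Bool.and_eq_true, decide_eq_true_eq] at hf
  have h0 : ∀ g : ℕ → V, (fun j => g (0 + j)) = g := fun g => funext fun j => by rw [zero_add]
  obtain ⟨cF, mF⟩ := pick_cov (T.vF (2 * T.M)) T.gvF T.gidF rF 0 (T.ok_pickF h)
  obtain ⟨c0, m0⟩ := pick_cov (T.vE (2 * T.M) 0) T.gvE T.gidE (rE 0) 0 (T.ok_pickE h (by simp))
  obtain ⟨c1, m1⟩ := pick_cov (T.vE (2 * T.M) 1) T.gvE T.gidE (rE 1) 0 (T.ok_pickE h (by simp))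
  obtain ⟨c2, m2⟩ := pick_cov (T.vE (2 * T.M) 2) T.gvE T.gidE (rE 2) 0 (T.ok_pickE h (by simp))
  rw [h0] at cF c0 c1 c2
  rw [Tab.rawLaw, Tab.grLaw, sym_append, sym_append, sym_append, sym_append]
  refine Cov.append (cF.trans ?_) ((c0.append (c1.append c2)).trans ?_)
  · refine Cov.map_sym ?_
    have e : T.grpF.length = T.gvF.length := by simp [Tab.gvF]
    rw [Tab.grF, e]
    exact cov_digits_zip _ mF hf.1
  · rw [← sym_append, ← sym_append, ← law_append, ← law_append, ← List.append_assoc]
    refine Cov.map_sym ?_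
    have e : T.grpE.length = T.gvE.length := by simp [Tab.gvE]
    rw [Tab.grE, e]
    refine cov_digits_zip _ (fun p hp => ?_) hf.2
    simp only [List.mem_append] at hp
    rcases hp with (hp | hp) | hp
    exacts [m0 p hp, m1 p hp, m2 p hp]

lemma scatter_cov (reps : List V) (f : V → V) : ∀ (ws : List ℕ) (gv : List V)
    (rows : List (List (ℕ × ℕ × ℕ))), ws.length = gv.length →
    (∀ gr ∈ gv.zip rows, okRow reps (f gr.1) gr.2 = true) →
    Cov (sym ((ws.zip gv).map fun p => (p.1, f p.2)))
        (sym (law (fun g => reps.getD g (0, 0, 0)) (scatter ws rows))) ∧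
      ∀ p ∈ scatter ws rows, p.2 < reps.length
  | [], _, _, _, _ => ⟨by simpa [scatter, law, sym] using Cov.refl [], by simp [scatter]⟩
  | _ :: _, _, [], _, _ => ⟨by simpa [scatter, law, sym] using cov_nil _, by simp [scatter]⟩
  | _ :: _, [], _, hl, _ => by simp at hl
  | w :: ws, v :: gv, row :: rows, hl, h => by
    obtain ⟨hc, hm⟩ := scatter_cov reps f ws gv rows (by simpa using hl) fun gr hgr => h gr (List.mem_cons_of_mem _ hgr)
    have hr := h (v, row) List.mem_cons_self
    simp only [okRow, Bool.and_eq_true, List.all_eq_true, decide_eq_true_eq] at hr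
    have hscale : rowTargets reps w row = scale w (rowTargets reps 1 row) := by
      simp [rowTargets, scale, List.map_map, Function.comp_def]
    have h1 : Cov [(w, f v)] (rowTargets reps w row) := cov_split fun i => by
      rw [hscale, tot_scale]
      refine Nat.mul_le_mul_left _ ?_
      fin_cases i
      exacts [hr.2.1, hr.2.2.1, hr.2.2.2]
    have e : scatter (w :: ws) (row :: rows) =
        (row.map fun e => (w * e.1, e.2.2)) ++ scatter ws rows := rfl
    refine ⟨?_, fun p hp => ?_⟩
    · rw [e, law_append, sym_append, List.zip_cons_cons, List.map_cons, sym_cons]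
      refine Cov.append ((show Cov (sym [(w, f v)]) _ from h1.map_sym.trans (cov_of_val fun Ψ => ?_))) hc
      rw [val_sym, val_sym]
      simp only [law, rowTargets, List.map_map]
      congr 1
      refine List.map_congr_left fun x _ => ?_
      simp only [Function.comp, symV_eq_of_mem (tau_mem _ _)]
    · rw [e] at hp
      simp only [List.mem_append, List.mem_map] at hp
      rcases hp with ⟨x, hx, rfl⟩ | hp
      · exact hr.1 x hx
      · exact hm p hp

lemma map_sym (g : ℕ → ℕ) (L : Law) :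
    (sym L).map (fun p => (g p.1, p.2)) = sym (L.map fun p => (g p.1, p.2)) := by
  induction L with
  | nil => rfl
  | cons p L ih =>
    rw [sym_cons, List.map_append, ih, List.map_cons, sym_cons, List.map_map]
    rfl

lemma map_t2_sym (L : Law) :
    (sym L).map (fun p => (p.1, t2 p.2)) = sym (L.map fun p => (p.1, t2 p.2)) := by
  induction L with
  | nil => rfl
  | cons p L ih =>
    rw [sym_cons, List.map_append, ih, List.map_cons, sym_cons, List.map_map]
    congr 1
    simp [perms6, t2, add_comm]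

lemma coordSum_eq (L : Law) : coordSum L = tot L 0 + tot L 1 + tot L 2 := by
  induction L with
  | nil => rfl
  | cons p L ih =>
    simp only [coordSum, List.map_cons, List.sum_cons] at ih ⊢
    simp only [tot_cons, ih, crd]
    simp
    ring

lemma zip_map_weight (g : ℕ → ℕ) : ∀ (ws : List ℕ) (vs : List V),
    (ws.zip vs).map (fun p => (g p.1, p.2)) = (ws.map g).zip vs
  | [], _ => rfl
  | _ :: _, [] => rfl
  | w :: ws, v :: vs => by simp [zip_map_weight g ws vs]

lemma Map.rows_cov {P : Map} {S T : Tab} {f : V → V} (hP : P.ok S T f = true) (rF : List ℕ)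
    (rE : ℕ → List ℕ) :
    Cov (sym ((S.grLaw rF rE).map fun p => (p.1, f p.2)))
        (sym (law (fun g => T.reps.getD g (0, 0, 0)) (P.terms S rF rE))) ∧
      ∀ p ∈ P.terms S rF rE, p.2 < T.reps.length := by
  simp only [Map.ok, Bool.and_eq_true, List.all_eq_true] at hP
  obtain ⟨cF, mF⟩ := scatter_cov T.reps f (S.grF rF) S.gvF P.rowF
    (by simp [Tab.grF, Tab.gvF, digits_length]) hP.1
  obtain ⟨cE, mE⟩ := scatter_cov T.reps f (S.grE rE) S.gvE P.rowE
    (by simp [Tab.grE, Tab.gvE, digits_length]) hP.2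
  refine ⟨?_, fun p hp => ?_⟩
  · rw [Tab.grLaw, Map.terms, List.map_append, law_append, sym_append, sym_append]
    exact cF.append cE
  · simp only [Map.terms, List.mem_append] at hp
    rcases hp with hp | hp
    exacts [mF p hp, mE p hp]

lemma Map.flat_sound {P : Map} {S T : Tab} (hS : S.ok = true) (hP : P.ok S T (fun v => v) = true)
    {ι : Type} [Fintype ι] {v : ι → Fin 3 → ℝ} (hb : Balanced v) {rF : List ℕ} {rE : ℕ → List ℕ}
    (h : Dom v (S.D * S.D) (S.rawLaw rF rE)) {y : List ℕ}
    (hy : P.flat S T rF rE = some y) : Dom v T.D (T.stLaw y) := by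
  unfold Map.flat at hy
  split_ifs at hy with hc
  simp only [Bool.and_eq_true, decide_eq_true_eq] at hc
  obtain ⟨cR, mR⟩ := P.rows_cov hP rF rE
  simp only [List.map_id'] at cR
  have h2 := (((h.sym hb).cov (S.gr_cov hS hc.1)).cov cR).cov
    (Cov.map_sym (cov_digits_zip T.reps mR hc.2))
  have hd : 0 < 6 * (S.D * S.D) :=
    Nat.mul_pos (by norm_num) (Nat.mul_pos (Tab.ok_D hS) (Tab.ok_D hS))
  have h3 := h2.rescale hd T.D
  rw [map_sym (fun w => w * T.D / (6 * (S.D * S.D))), zip_map_weight (fun w => w * T.D / (6 * (S.D * S.D))),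
    Option.some.inj hy] at h3
  exact h3

lemma Map.chan_sound {P : Map} {S T : Tab} (hS : S.ok = true) (hP : P.ok S T t2 = true)
    (hC : P.okCorner T = true) {ι : Type} [Fintype ι] {v : ι → Fin 3 → ℝ} (hb : Balanced v)
    {rF : List ℕ} {rE : ℕ → List ℕ} (h : Dom v (S.D * S.D) (S.rawLaw rF rE)) {lam : ℝ}
    (h0 : -1 / 2 ≤ lam) (h1 : lam ≤ 0) {y : List ℕ}
    (hy : P.chan S T rF rE = some y) : Dom (fun τ => chanMap lam (v τ)) T.D (T.stLaw y) := by
  unfold Map.chan at hy
  split_ifs at hy with hc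
  simp only [Bool.and_eq_true, decide_eq_true_eq] at hc
  obtain ⟨cR, mR⟩ := P.rows_cov hP rF rE
  simp only [Map.okCorner, decide_eq_true_eq] at hC
  set d6 := 6 * (S.D * S.D) with hd6
  set G := sym (S.grLaw rF rE) with hG
  have h2 := ((h.sym hb).cov (S.gr_cov hS hc.1)).chan hb h0 h1
  set x := (T.reps.getD P.tc (0, 0, 0)).2.1 with hx
  set cw := d6 - 2 * coordSum (S.grLaw rF rE) with hcw
  have ht : ∀ i, d6 - tot G i = cw := fun i => by
    rw [hG, tot_sym_eq, hcw, coordSum_eq]
  have hW : P.cornerW S T rF rE = cw / (2 * x) := rfl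
  have hcorner : Cov (chanCorners d6 G) (sym [(cw / (2 * x), T.reps.getD P.tc (0, 0, 0))]) := by
    rw [hC.2.1, chanCorners, ht, ht, ht]
    set y' := cw / (2 * x)
    have hle : 2 * (y' * x) ≤ cw := by
      have := Nat.mul_div_le cw (2 * x)
      calc 2 * (y' * x) = 2 * x * y' := by ring
        _ ≤ cw := this
    have c0 : Cov [(cw, ((0, 1, 1) : V))] [(y', (0, x, x)), (y', (0, x, x))] :=
      cov_split fun i => by fin_cases i <;> simp [tot, crd] <;> omega
    have c1 : Cov [(cw, ((1, 0, 1) : V))] [(y', (x, 0, x)), (y', (x, 0, x))] :=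
      cov_split fun i => by fin_cases i <;> simp [tot, crd] <;> omega
    have c2 : Cov [(cw, ((1, 1, 0) : V))] [(y', (x, x, 0)), (y', (x, x, 0))] :=
      cov_split fun i => by fin_cases i <;> simp [tot, crd] <;> omega
    exact c0.append (c1.append c2)
  have e : Cov (chanLaw d6 G) (sym (law (fun g => T.reps.getD g (0, 0, 0))
      (P.chanTerms S T rF rE))) := by
    refine Cov.trans (G := sym [(cw / (2 * x), T.reps.getD P.tc (0, 0, 0))] ++
      sym (law (fun g => T.reps.getD g (0, 0, 0)) (P.terms S rF rE))) ?_ (cov_of_val fun Ψ => ?_)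
    · rw [chanLaw, hG, map_t2_sym]
      refine Cov.trans (G := chanCorners d6 G ++ sym ((S.grLaw rF rE).map fun p => (p.1, t2 p.2)))
        (cov_of_val fun Ψ => by rw [val_append, val_append, hG]; ring) (hcorner.append cR)
    · rw [← sym_append, Map.chanTerms, hW]
      rfl
  have h3 := (h2.cov e).cov (Cov.map_sym (cov_digits_zip T.reps (fun p hp => ?_) hc.2))
  swap
  · simp only [Map.chanTerms, List.mem_cons] at hp
    rcases hp with rfl | hp
    exacts [hC.1, mR p hp]
  have hd : 0 < 2 * d6 :=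
    Nat.mul_pos (by norm_num) (Nat.mul_pos (by norm_num) (Nat.mul_pos (Tab.ok_D hS) (Tab.ok_D hS)))
  have h4 := h3.rescale hd T.D
  rw [map_sym (fun w => w * T.D / (2 * d6)), zip_map_weight (fun w => w * T.D / (2 * d6)),
    Option.some.inj hy] at h4
  exact h4

/-- The state `y` bounds every child seen through the channel. -/
lemma Tab.square_dom {S : Tab} (hS : S.ok = true) {y : List ℕ} (hf : S.sqFits y = true)
    {ι κ : Type} [Fintype ι] [Fintype κ] {u : ι → Fin 3 → ℝ} {v : κ → Fin 3 → ℝ}
    (hu : Balanced u) (h : Dom u S.D (S.stLaw y)) (h' : Dom v S.D (S.stLaw y)) :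
    Dom (fun p : ι × κ => fun i => u p.1 i * v p.2 i) (S.D * S.D)
      (S.rawLaw (S.rawF y) (S.rawE y)) :=
  (Dom.mul hu.nonneg hu.marg h h').cov (S.cov_sq hS hf)

/-- The data of one level are checked. -/
def okLevel (Q R : Map) (S T : Tab) : Bool :=
  S.ok && Q.ok S S (fun v => v) && R.ok S T t2 && R.okCorner T

lemma level_sound {Q R : Map} {S T : Tab} (hok : okLevel Q R S T = true) {y y' : List ℕ}
    (hy : level Q R S T y = some y') {lam : ℝ} (h0 : -1 / 2 ≤ lam) (h1 : lam ≤ 0)
    {A B C E : Type} [Fintype A] [Fintype B] [Fintype C] [Fintype E] {a : A → Fin 3 → ℝ}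
    {b : B → Fin 3 → ℝ} {c : C → Fin 3 → ℝ} {e : E → Fin 3 → ℝ}
    (ha : Balanced a) (hb : Balanced b) (hc : Balanced c) (he : Balanced e)
    (h : Dom a S.D (S.stLaw y)) (h' : Dom b S.D (S.stLaw y)) (g : Dom c S.D (S.stLaw y))
    (g' : Dom e S.D (S.stLaw y)) :
    Dom (fun p : (A × B) × (C × E) => chanMap lam fun i =>
      (a p.1.1 i * b p.1.2 i) * (c p.2.1 i * e p.2.2 i)) T.D (T.stLaw y') := by
  simp only [okLevel, Bool.and_eq_true] at hok
  obtain ⟨⟨⟨hS, hQ⟩, hR⟩, hC⟩ := hok
  simp only [level] at hy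
  split_ifs at hy with hf1
  split at hy
  next w hw =>
    split_ifs at hy with hf2
    have hab := Map.flat_sound hS hQ (Balanced.pair ha hb)
      (Tab.square_dom hS hf1 ha h h') hw
    have hcd := Map.flat_sound hS hQ (Balanced.pair hc he)
      (Tab.square_dom hS hf1 hc g g') hw
    exact Map.chan_sound hS hR hC (Balanced.pair (Balanced.pair ha hb) (Balanced.pair hc he))
      (Tab.square_dom hS hf2 (Balanced.pair ha hb) hab hcd) h0 h1 hy
  next => simp at hy

lemma start_sound {R : Map} {S : Tab} (hS : S.ok = true) (hR : R.ok S S t2 = true)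
    (hC : R.okCorner S = true) {y : List ℕ} (hy : start R S = some y) {lam : ℝ}
    (h0 : -1 / 2 ≤ lam) (h1 : lam ≤ 0) {ι : Type} [Fintype ι] {v : ι → Fin 3 → ℝ}
    (hb : Balanced v) (h : Dom v 1 []) :
    Dom (fun τ => chanMap lam (v τ)) S.D (S.stLaw y) := by
  refine Map.chan_sound hS hR hC hb ?_ h0 h1 hy
  have := h.scale (S.D * S.D)
  rw [mul_one] at this
  simpa [Tab.rawLaw, dense, scale] using this

end Vale.Agent.P154.Upgrade
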