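import Vale.Agent.P154.Upgrade.Sym

/-!
P154: weights packed into the digits of one natural number.
-/

namespace Vale.Agent.P154.Upgrade

open scoped BigOperators

/-- The first `n` digits in base `2 ^ B`. -/
def digits (B : ℕ) : ℕ → ℕ → List ℕ
  | 0, _ => []
  | n + 1, x => x % 2 ^ B :: digits B n (x >>> B)

/-- The digits, read row by row. -/
def digitsRows (B : ℕ) (a b : ℕ) (x : ℕ) : List ℕ := (digits (B * b) a x).flatMap (digits B b)

/-- A number with prescribed digits. -/
def encFun (B : ℕ) : ℕ → (ℕ → ℕ) → ℕ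
  | 0, _ => 0
  | n + 1, c => c 0 + encFun B n (fun I => c (I + 1)) * 2 ^ B

/-- The weights packed at their indices. -/
def enc (B : ℕ) (t : List (ℕ × ℕ)) : ℕ := t.foldr (fun p acc => (p.1 <<< (B * p.2)) + acc) 0

/-- The total weight. -/
def wsum (t : List (ℕ × ℕ)) : ℕ := (t.map Prod.fst).sum

/-- The law of indexed weights. -/
def law (f : ℕ → V) (t : List (ℕ × ℕ)) : Law := t.map fun p => (p.1, f p.2)

/-- The law of a dense list of weights. -/
def dense : (ℕ → V) → List ℕ → Law
  | _, [] => []
  | f, c :: cs => (c, f 0) :: dense (fun i => f (i + 1)) cs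

/-- The weight at an index. -/
def count (t : List (ℕ × ℕ)) (I : ℕ) : ℕ :=
  (t.map fun p => if p.2 = I then p.1 else 0).sum

lemma enc_cons (B : ℕ) (p : ℕ × ℕ) (t : List (ℕ × ℕ)) :
    enc B (p :: t) = p.1 * 2 ^ (B * p.2) + enc B t := by
  simp [enc, Nat.shiftLeft_eq]

lemma encFun_add (B : ℕ) : ∀ (n : ℕ) (c c' : ℕ → ℕ),
    encFun B n (fun I => c I + c' I) = encFun B n c + encFun B n c'
  | 0, _, _ => rfl
  | n + 1, c, c' => by
    simp only [encFun, encFun_add B n]
    ring

lemma encFun_zero (B : ℕ) : ∀ n, encFun B n (fun _ => 0) = 0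
  | 0 => rfl
  | n + 1 => by simp [encFun, encFun_zero B n]

lemma encFun_single (B : ℕ) : ∀ (n i w : ℕ), i < n →
    encFun B n (fun I => if i = I then w else 0) = w * 2 ^ (B * i)
  | 0, _, _, h => absurd h (Nat.not_lt_zero _)
  | n + 1, 0, w, _ => by simp [encFun, encFun_zero]
  | n + 1, i + 1, w, h => by
    simp only [encFun, Nat.add_right_cancel_iff, Nat.succ_ne_zero, if_false, zero_add]
    rw [encFun_single B n i w (by omega), Nat.mul_succ, pow_add, mul_assoc]

lemma enc_eq (B n : ℕ) : ∀ t : List (ℕ × ℕ), (∀ p ∈ t, p.2 < n) → enc B t = encFun B n (count t)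
  | [], _ => by rw [show count [] = fun _ => 0 from funext fun _ => rfl, encFun_zero]; rfl
  | p :: t, h => by
    have e : count (p :: t) = fun I => (if p.2 = I then p.1 else 0) + count t I :=
      funext fun I => by simp [count]
    rw [enc_cons, enc_eq B n t fun q hq => h q (List.mem_cons_of_mem _ hq), e, encFun_add,
      encFun_single B n p.2 p.1 (h p List.mem_cons_self)]

lemma digits_encFun (B : ℕ) : ∀ (n : ℕ) (c : ℕ → ℕ), (∀ I, c I < 2 ^ B) →
    digits B n (encFun B n c) = (List.range n).map c
  | 0, _, _ => rfl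
  | n + 1, c, h => by
    rw [digits, encFun, Nat.add_mul_mod_self_right, Nat.mod_eq_of_lt (h 0), Nat.shiftRight_eq_div_pow,
      Nat.add_mul_div_right _ _ (Nat.two_pow_pos B), Nat.div_eq_of_lt (h 0), zero_add,
      digits_encFun B n _ fun I => h (I + 1), List.range_succ_eq_map, List.map_cons, List.map_map]
    rfl

lemma count_le_wsum : ∀ (t : List (ℕ × ℕ)) (I : ℕ), count t I ≤ wsum t
  | [], _ => le_rfl
  | p :: t, I => by
    have := count_le_wsum t I
    simp only [count, wsum, List.map_cons, List.sum_cons] at this ⊢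
    split_ifs <;> omega

lemma digits_enc {B n : ℕ} {t : List (ℕ × ℕ)} (hn : ∀ p ∈ t, p.2 < n) (hB : wsum t < 2 ^ B) :
    digits B n (enc B t) = (List.range n).map (count t) := by
  rw [enc_eq B n t hn, digits_encFun B n _ fun I => (count_le_wsum t I).trans_lt hB]

lemma digits_add (B : ℕ) : ∀ (m n x : ℕ),
    digits B (m + n) x = digits B m x ++ digits B n (x >>> (B * m))
  | 0, n, x => by simp [digits]
  | m + 1, n, x => by
    rw [Nat.succ_add, digits, digits, digits_add B m n, List.cons_append, ← Nat.shiftRight_add,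
      Nat.mul_succ, Nat.add_comm (B * m)]

lemma digits_mod (B : ℕ) : ∀ (n m x : ℕ), B * n ≤ m → digits B n (x % 2 ^ m) = digits B n x
  | 0, _, _, _ => rfl
  | n + 1, m, x, h => by
    rw [Nat.mul_succ] at h
    obtain ⟨k, rfl⟩ : ∃ k, m = B + k := ⟨m - B, by omega⟩
    rw [digits, digits, Nat.mod_mod_of_dvd _ ⟨2 ^ k, pow_add 2 B k⟩, Nat.shiftRight_eq_div_pow,
      Nat.shiftRight_eq_div_pow, pow_add, Nat.mod_mul_right_div_self,
      digits_mod B n k _ (by omega)]

lemma digitsRows_eq (B b : ℕ) : ∀ (a x : ℕ), digitsRows B a b x = digits B (a * b) x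
  | 0, x => by simp [digitsRows, digits]
  | a + 1, x => by
    have ih := digitsRows_eq B b a (x >>> (B * b))
    rw [digitsRows] at ih ⊢
    rw [digits, List.flatMap_cons, ih, Nat.succ_mul, Nat.add_comm (a * b), digits_add,
      digits_mod B b _ _ le_rfl]

lemma list_sum_range (n : ℕ) (g : ℕ → ℝ) :
    ((List.range n).map g).sum = ∑ I ∈ Finset.range n, g I := by
  induction n with
  | zero => simp
  | succ n ih => simp [List.range_succ, Finset.sum_range_succ, ih]

lemma dense_map_range (c : ℕ → ℕ) : ∀ (n : ℕ) (f : ℕ → V),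
    dense f ((List.range n).map c) = (List.range n).map fun I => (c I, f I) := by
  intro n
  induction n generalizing c with
  | zero => intro f; rfl
  | succ n ih =>
    intro f
    rw [List.range_succ_eq_map, List.map_cons, List.map_cons, dense, List.map_map, List.map_map, ih]
    rfl

lemma val_law_eq_count (Ψ : (Fin 3 → ℝ) → ℝ) (f : ℕ → V) (n : ℕ) :
    ∀ t : List (ℕ × ℕ), (∀ p ∈ t, p.2 < n) →
      val Ψ (law f t) = ∑ I ∈ Finset.range n, (count t I : ℝ) * Ψ (rv (f I))
  | [], _ => by simp [law, count]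
  | p :: t, h => by
    have e : ∀ I, (count (p :: t) I : ℝ) = (if p.2 = I then (p.1 : ℝ) else 0) + count t I := by
      intro I
      simp only [count, List.map_cons, List.sum_cons, Nat.cast_add]
      split_ifs <;> simp
    simp only [e, add_mul, Finset.sum_add_distrib, ite_mul, zero_mul, Finset.sum_ite_eq,
      Finset.mem_range, h p List.mem_cons_self, if_true]
    rw [← val_law_eq_count Ψ f n t fun q hq => h q (List.mem_cons_of_mem _ hq)]
    simp [law, val_cons]

lemma tot_cast_eq_val (L : Law) (i : Fin 3) : (tot L i : ℝ) = val (fun w => w i) L := by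
  induction L with
  | nil => simp
  | cons p L ih =>
    rw [tot_cons, val_cons, ← ih, rv_apply]
    push_cast
    ring

lemma cov_of_val {L G : Law} (h : ∀ Ψ, val Ψ L = val Ψ G) : Cov L G :=
  cov_congr (fun i => by
    have := h fun w => w i
    rw [← tot_cast_eq_val, ← tot_cast_eq_val] at this
    exact_mod_cast this.symm) h

/-- Packing and reading back keeps the law. -/
lemma cov_digits {B n : ℕ} {t : List (ℕ × ℕ)} (f : ℕ → V) (hn : ∀ p ∈ t, p.2 < n)
    (hB : wsum t < 2 ^ B) : Cov (law f t) (dense f (digits B n (enc B t))) :=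
  cov_of_val fun Ψ => by
    rw [val_law_eq_count Ψ f n t hn, digits_enc hn hB, dense_map_range]
    simp only [val, List.map_map]
    exact (list_sum_range n fun I => (count t I : ℝ) * Ψ (rv (f I))).symm

/-- All products of indexed weights. -/
def mulT (a b : List (ℕ × ℕ)) : List (ℕ × ℕ) :=
  a.flatMap fun p => b.map fun p' => (p.1 * p'.1, p.2 + p'.2)

lemma mulT_cons (p : ℕ × ℕ) (a b : List (ℕ × ℕ)) :
    mulT (p :: a) b = (b.map fun p' => (p.1 * p'.1, p.2 + p'.2)) ++ mulT a b := rfl

lemma enc_append (B : ℕ) (a b : List (ℕ × ℕ)) : enc B (a ++ b) = enc B a + enc B b := by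
  induction a with
  | nil => simp [enc]
  | cons p a ih => rw [List.cons_append, enc_cons, enc_cons, ih, add_assoc]

lemma enc_mulT (B : ℕ) (a b : List (ℕ × ℕ)) : enc B (mulT a b) = enc B a * enc B b := by
  induction a with
  | nil => simp [mulT, enc]
  | cons p a ih =>
    rw [mulT_cons, enc_append, ih, enc_cons, add_mul]
    congr 1
    clear ih
    induction b with
    | nil => simp [enc]
    | cons p' b ih =>
      rw [List.map_cons, enc_cons, ih, enc_cons, Nat.mul_add B, pow_add]
      ring

lemma wsum_append (a b : List (ℕ × ℕ)) : wsum (a ++ b) = wsum a + wsum b := by simp [wsum]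

lemma wsum_mulT (a b : List (ℕ × ℕ)) : wsum (mulT a b) = wsum a * wsum b := by
  induction a with
  | nil => simp [mulT, wsum]
  | cons p a ih =>
    rw [mulT_cons, wsum_append, ih]
    simp only [wsum, List.map_cons, List.sum_cons, List.map_map, add_mul]
    congr 1
    clear ih
    induction b with
    | nil => simp
    | cons p' b ih => simp only [List.map_cons, List.sum_cons, Function.comp, mul_add] at ih ⊢; rw [ih]

lemma law_append (f : ℕ → V) (a b : List (ℕ × ℕ)) : law f (a ++ b) = law f a ++ law f b :=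
  List.map_append

lemma law_mulT {f g h : ℕ → V} {a b : List (ℕ × ℕ)}
    (he : ∀ p ∈ a, ∀ p' ∈ b, vmul (f p.2) (g p'.2) = h (p.2 + p'.2)) :
    mulLaw (law f a) (law g b) = law h (mulT a b) := by
  induction a with
  | nil => rfl
  | cons p a ih =>
    have ih' := ih fun q hq => he q (List.mem_cons_of_mem _ hq)
    have e : law h (mulT (p :: a) b) =
        (law g b).map (fun r => (p.1 * r.1, vmul (f p.2) r.2)) ++ law h (mulT a b) := by
      rw [mulT_cons, law_append]
      congr 1
      simp only [law, List.map_map]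
      refine List.map_congr_left fun p' hp' => ?_
      simp only [Function.comp, he p List.mem_cons_self p' hp']
    rw [e, ← ih']
    rfl

lemma mem_mulT {a b : List (ℕ × ℕ)} {r : ℕ × ℕ} (h : r ∈ mulT a b) :
    ∃ p ∈ a, ∃ p' ∈ b, r.2 = p.2 + p'.2 := by
  simp only [mulT, List.mem_flatMap, List.mem_map] at h
  obtain ⟨p, hp, p', hp', rfl⟩ := h
  exact ⟨p, hp, p', hp', rfl⟩

end Vale.Agent.P154.Upgrade
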