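import Vale.Agent.P154.Upgrade.Cov

/-!
P154: symmetrised laws, the channel, and the basic operations on bounded families.
-/

namespace Vale.Agent.P154.Upgrade

open scoped BigOperators

/-- The six rearrangements of a vector. -/
def perms6 (v : V) : List V :=
  [(v.1, v.2.1, v.2.2), (v.1, v.2.2, v.2.1), (v.2.2, v.1, v.2.1), (v.2.1, v.1, v.2.2),
    (v.2.1, v.2.2, v.1), (v.2.2, v.2.1, v.1)]

/-- All rearrangements of every element. -/
def sym (L : Law) : Law := L.flatMap fun p => (perms6 p.2).map fun u => (p.1, u)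

/-- The six permutations, in the order of `perms6`. -/
def perm6 : Fin 6 → Equiv.Perm (Fin 3) :=
  ![Equiv.refl _, Equiv.swap 1 2, Equiv.swap 1 2 * Equiv.swap 0 1, Equiv.swap 0 1,
    Equiv.swap 0 1 * Equiv.swap 1 2, Equiv.swap 0 2]

/-- The sum of a functional over the rearrangements of a vector. -/
noncomputable def symV (Ψ : (Fin 3 → ℝ) → ℝ) (v : V) : ℝ :=
  ((perms6 v).map fun u => Ψ (rv u)).sum

lemma symV_eq_of_mem {u v : V} (h : u ∈ perms6 v) (Ψ : (Fin 3 → ℝ) → ℝ) :
    symV Ψ u = symV Ψ v := by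
  obtain ⟨a, b, c⟩ := v
  simp only [perms6, List.mem_cons, List.not_mem_nil, or_false] at h
  rcases h with rfl | rfl | rfl | rfl | rfl | rfl <;>
    simp only [symV, perms6, List.map_cons, List.map_nil, List.sum_cons, List.sum_nil] <;> ring

lemma symV_eq_sum (Ψ : (Fin 3 → ℝ) → ℝ) (v : V) :
    symV Ψ v = ∑ s, Ψ fun i => rv v (perm6 s i) := by
  obtain ⟨a, b, c⟩ := v
  have e : ∀ (u : V) (s : Fin 6), (∀ i, crd u i = crd (a, b, c) (perm6 s i)) →
      (fun i => rv (a, b, c) (perm6 s i)) = rv u := fun u s h =>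
    funext fun i => by rw [rv_apply, rv_apply, h i]
  simp only [symV, perms6, List.map_cons, List.map_nil, List.sum_cons, List.sum_nil,
    Fin.sum_univ_six]
  rw [e (a, b, c) 0 fun i => by fin_cases i <;> rfl, e (a, c, b) 1 fun i => by fin_cases i <;> rfl,
    e (c, a, b) 2 fun i => by fin_cases i <;> rfl, e (b, a, c) 3 fun i => by fin_cases i <;> rfl,
    e (b, c, a) 4 fun i => by fin_cases i <;> rfl, e (c, b, a) 5 fun i => by fin_cases i <;> rfl]
  ring

lemma sym_cons (p : ℕ × V) (L : Law) :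
    sym (p :: L) = ((perms6 p.2).map fun u => (p.1, u)) ++ sym L := rfl

lemma sym_append (L G : Law) : sym (L ++ G) = sym L ++ sym G := List.flatMap_append

lemma val_sym (Ψ : (Fin 3 → ℝ) → ℝ) (L : Law) :
    val Ψ (sym L) = (L.map fun p => (p.1 : ℝ) * symV Ψ p.2).sum := by
  induction L with
  | nil => rfl
  | cons p L ih =>
    rw [sym_cons, val_append, ih, List.map_cons, List.sum_cons]
    congr 1
    simp [val, symV, perms6, mul_add]

lemma val_sym_eq_sum (Ψ : (Fin 3 → ℝ) → ℝ) (L : Law) :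
    val Ψ (sym L) = ∑ s, val (fun w => Ψ fun i => w (perm6 s i)) L := by
  induction L with
  | nil => simp [sym]
  | cons p L ih =>
    rw [sym_cons, val_append, ih]
    simp only [val_cons, Finset.sum_add_distrib, ← Finset.mul_sum, ← symV_eq_sum]
    congr 1
    simp [val, symV, perms6, mul_add]

lemma tot_sym (L : Law) (i : Fin 3) : tot (sym L) i = ∑ s, tot L (perm6 s i) := by
  induction L with
  | nil => simp [sym]
  | cons p L ih =>
    obtain ⟨w, a, b, c⟩ := p
    rw [sym_cons, tot_append, ih]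
    simp only [tot_cons, Finset.sum_add_distrib, Fin.sum_univ_six]
    fin_cases i <;> simp [tot, perms6, crd, perm6, Equiv.swap_apply_def] <;> ring

/-- The total of a symmetrised law. -/
lemma tot_sym_eq (L : Law) (i : Fin 3) :
    tot (sym L) i = 2 * (tot L 0 + tot L 1 + tot L 2) := by
  rw [tot_sym, Fin.sum_univ_six]
  fin_cases i <;> simp [perm6, Equiv.swap_apply_def] <;> omega

lemma Sublin.comp_perm {Ψ : (Fin 3 → ℝ) → ℝ} (hΨ : Sublin Ψ) (σ : Equiv.Perm (Fin 3)) :
    Sublin fun w => Ψ fun i => w (σ i) :=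
  ⟨fun r hr _ hw => hΨ.smul r hr _ fun i => hw (σ i),
    fun _ _ hv hw => hΨ.add _ _ (fun i => hv (σ i)) fun i => hw (σ i)⟩

lemma sum_corner_perm (Ψ : (Fin 3 → ℝ) → ℝ) (σ : Equiv.Perm (Fin 3)) (a : Fin 3 → ℝ) :
    ∑ i, a i * corner (fun w => Ψ fun j => w (σ j)) i = ∑ i, a (σ i) * corner Ψ i := by
  rw [← Equiv.sum_comp σ (fun i => a i * corner (fun w => Ψ fun j => w (σ j)) i)]
  refine Finset.sum_congr rfl fun i _ => ?_
  congr 1
  exact congrArg Ψ (funext fun j => by simp [σ.injective.eq_iff])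

lemma Cov.sym {L G : Law} (h : Cov L G) : Cov (Upgrade.sym L) (Upgrade.sym G) := by
  refine ⟨fun i => by rw [tot_sym, tot_sym]; exact Finset.sum_le_sum fun s _ => h.1 _,
    fun Ψ hΨ => ?_⟩
  rw [val_sym_eq_sum, val_sym_eq_sum]
  refine (Finset.sum_le_sum fun s _ => h.2 _ (hΨ.comp_perm (perm6 s))).trans (le_of_eq ?_)
  rw [Finset.sum_add_distrib]
  congr 1
  simp only [sum_corner_perm Ψ]
  rw [Finset.sum_comm]
  refine Finset.sum_congr rfl fun i _ => ?_
  simp only [tot_sym, Nat.cast_sum, sub_mul, Finset.sum_mul, Finset.sum_sub_distrib]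

lemma Dom.sym {ι : Type} [Fintype ι] {v : ι → Fin 3 → ℝ} {d : ℕ} {L : Law} (hb : Balanced v)
    (h : Dom v d L) : Dom v (6 * d) (Upgrade.sym L) := by
  refine ⟨fun i => ?_, fun Ψ hΨ => ?_⟩
  · rw [tot_sym]
    refine (Finset.sum_le_sum fun s _ => h.1 (perm6 s i)).trans_eq (by simp)
  have key : ∀ σ : Equiv.Perm (Fin 3), ∑ τ, Ψ (fun i => v τ (σ i)) = ∑ τ, Ψ (v τ) := by
    intro σ
    obtain ⟨e, he⟩ := hb.sym σ
    rw [← Equiv.sum_comp e (fun τ => Ψ (v τ))]
    exact Finset.sum_congr rfl fun τ _ => congrArg Ψ (funext fun i => (he τ i).symm)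
  rw [val_sym_eq_sum]
  have h2 : ∀ s, (d : ℝ) * ∑ τ, Ψ (v τ) ≤ val (fun w => Ψ fun i => w (perm6 s i)) L +
      ∑ i, ((d : ℝ) - tot L (perm6 s i)) * corner Ψ i := by
    intro s
    have := h.2 _ (hΨ.comp_perm (perm6 s))
    rwa [key, sum_corner_perm Ψ (perm6 s) fun i => (d : ℝ) - tot L i] at this
  have h3 := Finset.sum_le_sum fun s (_ : s ∈ Finset.univ) => h2 s
  rw [Finset.sum_add_distrib] at h3
  refine le_trans (le_of_eq ?_) (h3.trans (le_of_eq ?_))
  · simp only [Finset.sum_const, Finset.card_univ, Fintype.card_fin, nsmul_eq_mul]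
    push_cast
    ring
  · congr 1
    rw [Finset.sum_comm]
    refine Finset.sum_congr rfl fun i _ => ?_
    simp only [tot_sym, Nat.cast_sum, Nat.cast_mul, sub_mul, Finset.sum_mul,
      Finset.sum_sub_distrib, Finset.sum_const, Finset.card_univ, Fintype.card_fin, nsmul_eq_mul]
    push_cast
    ring

/-- Twice the channel at `-1/2`. -/
def t2 (v : V) : V := (v.2.1 + v.2.2, v.1 + v.2.2, v.1 + v.2.1)

/-- The image of the missing unit vectors under twice the channel. -/
def chanCorners (d : ℕ) (L : Law) : Law :=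
  [(d - tot L 0, (0, 1, 1)), (d - tot L 1, (1, 0, 1)), (d - tot L 2, (1, 1, 0))]

/-- The law of the children seen through the channel. -/
def chanLaw (d : ℕ) (L : Law) : Law := (L.map fun p => (p.1, t2 p.2)) ++ chanCorners d L

lemma chanMap_half (w : Fin 3 → ℝ) (i : Fin 3) :
    chanMap (-1 / 2) w i = (w 0 + w 1 + w 2 - w i) / 2 := by
  rw [chanMap_eq, Fin.sum_univ_three]
  push_cast
  ring

lemma Sublin.comp_half {Ψ : (Fin 3 → ℝ) → ℝ} (hΨ : Sublin Ψ) :
    Sublin fun w => Ψ (chanMap (-1 / 2) w) := by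
  have hnn : ∀ w : Fin 3 → ℝ, (∀ i, 0 ≤ w i) → ∀ i, 0 ≤ chanMap (-1 / 2) w i := fun w hw =>
    chanMap_nonneg (by norm_num) (by norm_num) (by norm_num) hw
  refine ⟨fun r hr w hw => ?_, fun v w hv hw => ?_⟩
  · rw [← hΨ.smul r hr _ (hnn w hw)]
    refine congrArg Ψ (funext fun i => ?_)
    simp only [chanMap_half, Pi.smul_apply, smul_eq_mul]
    ring
  · refine le_trans (le_of_eq (congrArg Ψ (funext fun i => ?_))) (hΨ.add _ _ (hnn v hv) (hnn w hw))
    simp only [chanMap_half, Pi.add_apply]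
    ring

lemma rv_t2 (v : V) (i : Fin 3) : rv (t2 v) i = 2 * chanMap (-1 / 2) (rv v) i := by
  rw [chanMap_half]
  obtain ⟨a, b, c⟩ := v
  fin_cases i <;> simp [t2, rv] <;> ring

lemma tot_chanLaw {d : ℕ} {L : Law} (h : ∀ i, tot L i ≤ d) (i : Fin 3) :
    tot (chanLaw d L) i = 2 * d := by
  have e : ∀ L : Law, tot (L.map fun p => (p.1, t2 p.2)) i + tot L i =
      tot L 0 + tot L 1 + tot L 2 := by
    intro L
    induction L with
    | nil => simp
    | cons p L ih =>
      have hc : crd (t2 p.2) i + crd p.2 i = crd p.2 0 + crd p.2 1 + crd p.2 2 := by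
        fin_cases i <;> simp [crd, t2] <;> omega
      have := congrArg (p.1 * ·) hc
      simp only [Nat.mul_add] at this
      simp only [List.map_cons, tot_cons]
      omega
  have := e L
  have := h 0
  have := h 1
  have := h 2
  rw [chanLaw, tot_append, chanCorners]
  simp only [tot_cons, tot_nil]
  fin_cases i <;> simp [crd] at * <;> omega

/-- The step through the channel, for every parameter in `[-1/2, 0]`. -/
lemma Dom.chan {ι : Type} [Fintype ι] {v : ι → Fin 3 → ℝ} {d : ℕ} {L : Law} (hb : Balanced v)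
    (h : Dom v d L) {lam : ℝ} (h0 : -1 / 2 ≤ lam) (h1 : lam ≤ 0) :
    Dom (fun τ => chanMap lam (v τ)) (2 * d) (chanLaw d L) := by
  refine ⟨fun i => (tot_chanLaw h.1 i).le, fun Ψ hΨ => ?_⟩
  have hz : ∀ i, ((2 * d : ℕ) : ℝ) - tot (chanLaw d L) i = 0 := fun i => by
    rw [tot_chanLaw h.1 i]; simp
  simp only [hz, zero_mul, Finset.sum_const_zero, add_zero]
  have hnn : ∀ w : Fin 3 → ℝ, (∀ i, 0 ≤ w i) → ∀ i, 0 ≤ chanMap (-1 / 2) w i := fun w hw =>
    chanMap_nonneg (by norm_num) (by norm_num) (by norm_num) hw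
  -- a weaker channel is dominated
  have hshrink : ∑ τ, Ψ (chanMap lam (v τ)) ≤ ∑ τ, Ψ (chanMap (-1 / 2) (v τ)) := by
    have key : ∀ σ : Equiv.Perm (Fin 3), ∑ τ, Ψ (chanMap (-1 / 2) (fun i => v τ (σ i))) =
        ∑ τ, Ψ (chanMap (-1 / 2) (v τ)) := by
      intro σ
      obtain ⟨e, he⟩ := hb.sym σ
      rw [← Equiv.sum_comp e (fun τ => Ψ (chanMap (-1 / 2) (v τ)))]
      exact Finset.sum_congr rfl fun τ _ =>
        congrArg Ψ (congrArg _ (funext fun i => (he τ i).symm))
    set c := -2 * lam with hc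
    have hc0 : 0 ≤ c := by rw [hc]; linarith
    have hc1 : 0 ≤ (1 - c) / 6 := by rw [hc]; linarith
    set g := fun (τ : ι) (σ : Fin 6) => chanMap (-1 / 2) (fun i => v τ (perm6 σ i)) with hg
    have hgn : ∀ τ σ i, 0 ≤ (((1 - c) / 6) • g τ σ) i := fun τ σ i =>
      mul_nonneg hc1 (hnn _ (fun j => hb.nonneg τ _) i)
    have step : ∀ τ, Ψ (chanMap lam (v τ)) ≤
        c * Ψ (chanMap (-1 / 2) (v τ)) + (1 - c) / 6 * ∑ σ, Ψ (g τ σ) := by
      intro τ
      have e : chanMap lam (v τ) = c • chanMap (-1 / 2) (v τ) +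
          (((1 - c) / 6) • g τ 0 + (((1 - c) / 6) • g τ 1 + (((1 - c) / 6) • g τ 2 +
            (((1 - c) / 6) • g τ 3 + (((1 - c) / 6) • g τ 4 + ((1 - c) / 6) • g τ 5))))) := by
        funext i
        simp only [hg, Pi.add_apply, Pi.smul_apply, smul_eq_mul, chanMap_half]
        rw [chanMap_eq, Fin.sum_univ_three, hc]
        fin_cases i <;> simp [perm6, Equiv.swap_apply_def] <;> ring
      rw [e]
      refine le_trans (hΨ.add _ _ (fun i => mul_nonneg hc0 (hnn _ (hb.nonneg τ) i)) ?_) ?_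
      · exact fun i => add_nonneg (hgn τ 0 i) (add_nonneg (hgn τ 1 i) (add_nonneg (hgn τ 2 i)
          (add_nonneg (hgn τ 3 i) (add_nonneg (hgn τ 4 i) (hgn τ 5 i)))))
      refine add_le_add (le_of_eq (hΨ.smul c hc0 _ (hnn _ (hb.nonneg τ)))) ?_
      refine le_trans (hΨ.add _ _ (hgn τ 0) fun i => add_nonneg (hgn τ 1 i) (add_nonneg (hgn τ 2 i)
          (add_nonneg (hgn τ 3 i) (add_nonneg (hgn τ 4 i) (hgn τ 5 i))))) ?_
      refine le_trans (add_le_add le_rfl (hΨ.add _ _ (hgn τ 1) fun i => add_nonneg (hgn τ 2 i)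
          (add_nonneg (hgn τ 3 i) (add_nonneg (hgn τ 4 i) (hgn τ 5 i))))) ?_
      refine le_trans (add_le_add le_rfl (add_le_add le_rfl (hΨ.add _ _ (hgn τ 2) fun i =>
          add_nonneg (hgn τ 3 i) (add_nonneg (hgn τ 4 i) (hgn τ 5 i))))) ?_
      refine le_trans (add_le_add le_rfl (add_le_add le_rfl (add_le_add le_rfl
          (hΨ.add _ _ (hgn τ 3) fun i => add_nonneg (hgn τ 4 i) (hgn τ 5 i))))) ?_
      refine le_trans (add_le_add le_rfl (add_le_add le_rfl (add_le_add le_rfl (add_le_add le_rfl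
          (hΨ.add _ _ (hgn τ 4) (hgn τ 5)))))) ?_
      simp only [hΨ.smul _ hc1 _ (hnn _ fun j => hb.nonneg τ _), hg, Fin.sum_univ_six]
      linarith
    refine (Finset.sum_le_sum fun τ _ => step τ).trans (le_of_eq ?_)
    rw [Finset.sum_add_distrib, ← Finset.mul_sum, ← Finset.mul_sum, Finset.sum_comm]
    simp only [hg, key, Finset.sum_const, Finset.card_univ, Fintype.card_fin, nsmul_eq_mul]
    push_cast
    ring
  refine (mul_le_mul_of_nonneg_left hshrink (Nat.cast_nonneg _)).trans ?_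
  have h2 := h.2 _ hΨ.comp_half
  have e1 : ∀ L : Law, val Ψ (L.map fun p => (p.1, t2 p.2)) =
      2 * val (fun w => Ψ (chanMap (-1 / 2) w)) L := by
    intro L
    induction L with
    | nil => simp
    | cons p L ih =>
      have : rv (t2 p.2) = (2 : ℝ) • chanMap (-1 / 2) (rv p.2) := funext fun i => rv_t2 _ i
      rw [List.map_cons, val_cons, val_cons, ih]
      dsimp only
      rw [this, hΨ.smul 2 zero_le_two _ (hnn _ (rv_nonneg _))]
      ring
  have e2 : ∀ i, corner (fun w => Ψ (chanMap (-1 / 2) w)) i * 2 =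
      Ψ (rv ((![(0, 1, 1), (1, 0, 1), (1, 1, 0)] : Fin 3 → V) i)) := by
    intro i
    rw [mul_comm, corner, ← hΨ.smul 2 zero_le_two _ (hnn _ fun j => by split_ifs <;> norm_num)]
    refine congrArg Ψ (funext fun j => ?_)
    simp only [Pi.smul_apply, smul_eq_mul, chanMap_half]
    fin_cases i <;> fin_cases j <;> simp [rv]
  have c0 := e2 0
  have c1 := e2 1
  have c2 := e2 2
  simp only [Matrix.cons_val_zero, Matrix.cons_val_one, Matrix.cons_val] at c0 c1 c2
  rw [chanLaw, val_append, e1, chanCorners]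
  simp only [val_cons, val_nil, Nat.cast_sub (h.1 0), Nat.cast_sub (h.1 1), Nat.cast_sub (h.1 2),
    Fin.sum_univ_three] at h2 ⊢
  rw [← c0, ← c1, ← c2]
  push_cast
  linarith

/-- Change of the common total. -/
lemma Dom.rescale {ι : Type} [Fintype ι] {v : ι → Fin 3 → ℝ} {d : ℕ} {L : Law} (hd : 0 < d)
    (h : Dom v d L) (D : ℕ) : Dom v D (L.map fun p => (p.1 * D / d, p.2)) := by
  have hc : Cov (Upgrade.scale D L) (Upgrade.scale d (L.map fun p => (p.1 * D / d, p.2))) := by
    clear h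
    induction L with
    | nil => exact Cov.refl []
    | cons p L ih =>
      have : Cov [(D * p.1, p.2)] [(d * (p.1 * D / d), p.2)] := cov_split fun i => by
        simp only [tot_cons, tot_nil, add_zero]
        refine Nat.mul_le_mul_right _ ?_
        rw [Nat.mul_comm D]
        exact Nat.mul_div_le _ _
      exact this.append ih
  have h2 := (h.scale D).cov hc
  refine ⟨fun i => ?_, fun Ψ hΨ => ?_⟩
  · have := h2.1 i
    rw [tot_scale, Nat.mul_comm D] at this
    exact Nat.le_of_mul_le_mul_left this hd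
  · refine le_of_mul_le_mul_left ?_ (Nat.cast_pos.mpr hd : (0 : ℝ) < d)
    have := h2.2 Ψ hΨ
    simp only [tot_scale, val_scale, Nat.cast_mul, Fin.sum_univ_three] at this ⊢
    linarith

/-- The leaves: unit vectors. -/
lemma Dom.unit {ι : Type} [Fintype ι] {v : ι → Fin 3 → ℝ} (e : Fin 3 ≃ ι)
    (he : ∀ j, v (e j) = fun i => if i = j then 1 else 0) : Dom v 1 [] := by
  refine ⟨fun i => by simp, fun Ψ _ => ?_⟩
  rw [← Equiv.sum_comp e (fun τ => Ψ (v τ))]
  simp [he, corner]

lemma Balanced.chan {ι : Type} [Fintype ι] {v : ι → Fin 3 → ℝ} (hb : Balanced v) {lam : ℝ}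
    (h0 : -1 / 2 ≤ lam) (h1 : lam ≤ 1) : Balanced fun τ => chanMap lam (v τ) := by
  refine ⟨fun τ i => chanMap_nonneg (by norm_num) (le_trans (by norm_num) h0) h1 (hb.nonneg τ) i,
    fun i => ?_, fun σ => ?_⟩
  · simp only [chanMap_eq, Finset.sum_add_distrib, ← Finset.mul_sum]
    rw [Finset.sum_comm]
    simp only [hb.marg, Finset.sum_const, Finset.card_univ, Fintype.card_fin, nsmul_eq_mul]
    push_cast
    ring
  · obtain ⟨e, he⟩ := hb.sym σ
    refine ⟨e, fun τ i => ?_⟩
    rw [← chanMap_perm]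
    exact congrArg (fun w => chanMap lam w i) (funext (he τ))

lemma Balanced.pair {ι κ : Type} [Fintype ι] [Fintype κ] {u : ι → Fin 3 → ℝ} {v : κ → Fin 3 → ℝ}
    (hu : Balanced u) (hv : Balanced v) :
    Balanced fun p : ι × κ => fun i => u p.1 i * v p.2 i := by
  refine ⟨fun p i => mul_nonneg (hu.nonneg _ i) (hv.nonneg _ i), fun i => ?_, fun σ => ?_⟩
  · rw [Fintype.sum_prod_type]
    simp only [← Finset.mul_sum, hv.marg, mul_one, hu.marg]
  · obtain ⟨e, he⟩ := hu.sym σ
    obtain ⟨e', he'⟩ := hv.sym σ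
    exact ⟨e.prodCongr e', fun p i => by simp [he, he']⟩

end Vale.Agent.P154.Upgrade
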