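import Vale.Agent.P154.Upgrade.Model
import Vale.Agent.P154.Upgrade.Fast

/-!
P154: reading a bound for the powers of the quadratic potential off a state.
-/

namespace Vale.Agent.P154.Upgrade

open scoped BigOperators ENNReal

/-- The sum of the coordinates. -/
def vsum (v : V) : ℕ := v.1 + v.2.1 + v.2.2

/-- The numerator of the quadratic potential. -/
def qnum (v : V) : ℕ := 3 * (v.1 ^ 2 + v.2.1 ^ 2 + v.2.2 ^ 2) - vsum v ^ 2

/-- An upper bound for a weighted power of the quadratic potential, scaled by `K`. -/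
def qTerm (j K : ℕ) (p : ℕ × V) : ℕ :=
  p.1 * qnum p.2 ^ j * K / (3 * vsum p.2 ^ (2 * j - 1)) + 1

/-- The bound `B / K` holds for the power `j` one level after the state `y`. -/
noncomputable def valueCheck (Q : Map) (S : Tab) (y : List ℕ) (j K B : ℕ) : Bool :=
  Option.rec false (fun w =>
    S.fits w &&
      Nat.ble
        (6 * (((digits S.BG S.gvF.length (S.sqF w)).zip S.gvF ++
            (digits S.BH S.gvE.length (S.sqE w)).zip S.gvE).map (qTerm j K)).sum +
          (6 * (S.D * S.D) - 2 * (dotCoord S.BG S.gvF (S.sqF w) + dotCoord S.BH S.gvE (S.sqE w))) *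
            2 ^ j * K)
        (B * (6 * (S.D * S.D))))
    (Q.flatF S S y)

lemma convex_potQ : ConvexOn ℝ (stdSimplex ℝ (Fin 3)) (potQ (q := 3)) := by
  refine ⟨convex_stdSimplex ℝ (Fin 3), fun x _ y _ a b ha hb hab => ?_⟩
  have key : ∀ u v : ℝ, (a * u + b * v) ^ 2 ≤ a * u ^ 2 + b * v ^ 2 := fun u v => by
    nlinarith [mul_nonneg (mul_nonneg ha hb) (sq_nonneg (u - v))]
  simp only [potQ, cmom, smul_eq_mul, ← mul_div_assoc, ← add_div, Finset.mul_sum,
    ← Finset.sum_add_distrib]
  refine div_le_div_of_nonneg_right (Finset.sum_le_sum fun i _ => ?_) (by norm_num)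
  refine le_trans (le_of_eq ?_) (key _ _)
  congr 1
  simp only [Pi.add_apply, Pi.smul_apply, smul_eq_mul]
  linear_combination hab

lemma convex_potQ_pow (j : ℕ) :
    ConvexOn ℝ (stdSimplex ℝ (Fin 3)) (fun p => potQ (q := 3) p ^ j) :=
  convex_potQ.pow (fun p _ => potQ_nonneg p) j

lemma Sublin.hom_of_convex {F : (Fin 3 → ℝ) → ℝ} (hF : ConvexOn ℝ (stdSimplex ℝ (Fin 3)) F) :
    Sublin (hom F) :=
  ⟨fun r _ w _ => hom_smul r w, fun _ _ hv hw => hom_add_le hF hv hw⟩

lemma hom_potQ_rv {j : ℕ} (hj : 1 ≤ j) (v : V) :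
    hom (fun p => potQ (q := 3) p ^ j) (rv v) =
      (qnum v : ℝ) ^ j / (3 * (vsum v : ℝ) ^ (2 * j - 1)) := by
  obtain ⟨a, b, c⟩ := v
  have hle : vsum (a, b, c) ^ 2 ≤ 3 * (a ^ 2 + b ^ 2 + c ^ 2) := by
    simp only [vsum]
    zify
    nlinarith [sq_nonneg ((a : ℤ) - b), sq_nonneg ((b : ℤ) - c), sq_nonneg ((a : ℤ) - c)]
  have hs : ∑ i, rv (a, b, c) i = (vsum (a, b, c) : ℝ) := by
    simp [Fin.sum_univ_three, rv, vsum]
  rcases Nat.eq_zero_or_pos (vsum (a, b, c)) with h | h
  · have e : qnum (a, b, c) = 0 := by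
      simp only [vsum] at h
      obtain ⟨rfl, rfl, rfl⟩ : a = 0 ∧ b = 0 ∧ c = 0 := by omega
      simp [qnum, vsum]
    simp [hom, hs, h, e, zero_pow (show j ≠ 0 by omega)]
  · set S := (vsum (a, b, c) : ℝ) with hS
    have hS0 : 0 < S := by rw [hS]; exact_mod_cast h
    have hq : potQ (q := 3) (fun i => rv (a, b, c) i / S) =
        (qnum (a, b, c) : ℝ) / S ^ 2 := by
      have hsum : (a : ℝ) + b + c = S := by rw [hS]; simp [vsum]
      simp only [potQ, cmom, qnum, Nat.cast_sub hle, Fin.sum_univ_three]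
      push_cast
      simp [rv, hS.symm]
      field_simp
      rw [← hsum]
      ring
    simp only [hom, hs, hq, div_pow, ← pow_mul]
    have e2 : 2 * j = (2 * j - 1) + 1 := by omega
    conv_lhs => rw [e2, pow_succ S]
    push_cast
    field_simp

lemma qTerm_le (j K : ℕ) (hj : 1 ≤ j) (p : ℕ × V) :
    (p.1 : ℝ) * hom (fun q => potQ (q := 3) q ^ j) (rv p.2) * K ≤ qTerm j K p := by
  rw [hom_potQ_rv hj]
  simp only [qTerm]
  push_cast
  set den := 3 * vsum p.2 ^ (2 * j - 1) with hden
  set num := p.1 * qnum p.2 ^ j * K with hnum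
  have e : (p.1 : ℝ) * ((qnum p.2 : ℝ) ^ j / (3 * (vsum p.2 : ℝ) ^ (2 * j - 1))) * K =
      (num : ℝ) / den := by
    rw [hden, hnum]
    push_cast
    ring
  rw [e]
  rcases Nat.eq_zero_or_pos den with h | h
  · simp [h]
  · rw [div_le_iff₀ (by exact_mod_cast h)]
    have := (Nat.lt_div_mul_add (a := num) h).le
    have := (Nat.cast_le (α := ℝ)).mpr this
    push_cast at this
    linarith

/-- A power of the quadratic potential is bounded one level later. -/
theorem Bound.value {lam : ℝ} (h0 : -1 / 2 ≤ lam) (h1 : lam ≤ 0) {Q : Map} {S : Tab}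
    (hok : (S.ok && Q.ok S S (fun v => v) && decide (Q.rowF.length = S.grpF.length ∧
      Q.rowE.length = S.grpE.length)) = true)
    {y : List ℕ} {j K B : ℕ} (hj : 1 ≤ j) (hv : valueCheck Q S y j K B = true) {n : ℕ}
    (h : Bound lam S y n) (T : Tree (n + 1)) (hT : AtMostFour (n + 1) T) :
    famVal (fun p => potQ (q := 3) p ^ j) (lik 3 lam (n + 1) T) * K ≤ B := by
  simp only [Bool.and_eq_true, decide_eq_true_eq] at hok
  obtain ⟨⟨hS, hQ⟩, lF, lE⟩ := hok
  unfold valueCheck at hv
  cases hw : Q.flatF S S y with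
  | none => rw [hw] at hv; simp at hv
  | some w =>
    rw [hw] at hv
    simp only [Bool.and_eq_true, Nat.ble_eq] at hv
    obtain ⟨hfw, hle⟩ := hv
    obtain ⟨r1, r2, g1, g2⟩ := S.fits_spec hS hfw
    unfold Map.flatF at hw
    split_ifs at hw with hc
    simp only [Bool.and_eq_true, Nat.blt_eq] at hc
    obtain ⟨q1, q2, _, _⟩ := S.fits_spec hS hc.1
    obtain ⟨s1, s2⟩ := Map.sumRows_eq (P := Q) hS hc.1 lF lE
    have hflat : Q.flat S S (S.rawF y) (S.rawE y) = some w := by
      rw [Map.flat, if_pos (by rw [q2, Bool.true_and, decide_eq_true_eq, ← s2]; exact hc.2), ← s1]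
      exact hw
    have hnode : Dom (lik 3 lam (n + 1) T) (6 * (S.D * S.D))
        (sym (S.grLaw (S.rawF w) (S.rawE w))) := by
      rw [show lik 3 lam (n + 1) T = fun τ => prodFam lam (fun a => lik 3 lam n (T.2 a)) τ from
        funext fun τ => lik_succ lam n T τ]
      refine dom_of_quad (g := fun u => u) (Good := fun ι _ v => Balanced v ∧
        Dom v S.D (S.stLaw y)) ?_ ⟨balanced_trivial, h.trivial h0 h1⟩ hT.1 fun a => ⟨Balanced.chan
          (lik_balanced (q := 3) (by norm_num) (by norm_num; linarith) (by linarith) n (T.2 a)).1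
          h0 (by linarith), h (T.2 a) (hT.2 a)⟩
      intro A B C E _ _ _ _ a b c e ha hb hc' he
      have hab := Map.flat_sound hS hQ (Balanced.pair ha.1 hb.1)
        (Tab.square_dom hS q1 ha.1 ha.2 hb.2) hflat
      have hcd := Map.flat_sound hS hQ (Balanced.pair hc'.1 he.1)
        (Tab.square_dom hS q1 hc'.1 hc'.2 he.2) hflat
      exact ((Tab.square_dom hS r1 (Balanced.pair ha.1 hb.1) hab hcd).sym
        (Balanced.pair (Balanced.pair ha.1 hb.1) (Balanced.pair hc'.1 he.1))).cov (S.gr_cov hS r2)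
    set F := fun p : Fin 3 → ℝ => potQ (q := 3) p ^ j with hF
    set L := S.grLaw (S.rawF w) (S.rawE w) with hL
    have hineq := hnode.2 (hom F) (Sublin.hom_of_convex (convex_potQ_pow j))
    have hlaw : (digits S.BG S.gvF.length (S.sqF w)).zip S.gvF ++
        (digits S.BH S.gvE.length (S.sqE w)).zip S.gvE = L := by
      rw [hL, g1, g2, Tab.grLaw, Tab.grF, Tab.grE]
      simp [Tab.gvF, Tab.gvE]
    have hcs : dotCoord S.BG S.gvF (S.sqF w) + dotCoord S.BH S.gvE (S.sqE w) = coordSum L := by
      rw [dotCoord_eq, dotCoord_eq, ← coordSum_append, hlaw]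
    rw [hlaw, hcs] at hle
    have hsym : ∀ u : V, symV (hom F) u = 6 * hom F (rv u) := by
      intro u
      obtain ⟨a, b, c⟩ := u
      simp only [hF, symV, perms6, List.map_cons, List.map_nil, List.sum_cons, List.sum_nil,
        hom_potQ_rv hj]
      simp only [qnum, vsum]
      ring_nf
    have hval : val (hom F) (sym L) * K ≤ (6 * (L.map (qTerm j K)).sum : ℕ) := by
      rw [val_sym]
      simp only [hsym]
      clear_value L
      clear hlaw hcs hle hineq hnode hL
      induction L with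
      | nil => simp
      | cons p L ih =>
        have := qTerm_le j K hj p
        simp only [List.map_cons, List.sum_cons, Nat.cast_mul, Nat.cast_add, Nat.cast_ofNat,
          mul_add, add_mul] at ih ⊢
        simp only [hF] at *
        linarith
    have hcorner : ∀ i, corner (hom F) i = 2 ^ j / 3 := by
      intro i
      have e : ∀ u : V, (fun l : Fin 3 => if l = i then (1 : ℝ) else 0) = rv u → qnum u = 2 →
          vsum u = 1 → corner (hom F) i = 2 ^ j / 3 := by
        intro u hu hq hs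
        rw [corner, hu, hF, hom_potQ_rv hj, hq, hs]
        simp
      fin_cases i
      · exact e (1, 0, 0) (funext fun l => by fin_cases l <;> simp [rv]) rfl rfl
      · exact e (0, 1, 0) (funext fun l => by fin_cases l <;> simp [rv]) rfl rfl
      · exact e (0, 0, 1) (funext fun l => by fin_cases l <;> simp [rv]) rfl rfl
    have htot : ∀ i, tot (sym L) i = 2 * coordSum L := fun i => by rw [tot_sym_eq, coordSum_eq]
    have hdle : 2 * coordSum L ≤ 6 * (S.D * S.D) := by
      have := hnode.1 0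
      rwa [htot] at this
    simp only [hcorner, htot, Finset.sum_const, Finset.card_univ, Fintype.card_fin,
      nsmul_eq_mul] at hineq
    have hle' := (Nat.cast_le (α := ℝ)).mpr hle
    rw [Nat.cast_add, Nat.cast_mul, Nat.cast_mul (_ * _) K, Nat.cast_mul (_ - _),
      Nat.cast_sub hdle] at hle'
    push_cast at hineq hle' hval
    have hDpos : (0 : ℝ) < 6 * ((S.D : ℝ) * S.D) := by
      have : (0 : ℝ) < S.D := Nat.cast_pos.mpr (Tab.ok_D hS)
      positivity
    refine le_of_mul_le_mul_left ?_ hDpos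
    have := mul_le_mul_of_nonneg_right hineq (Nat.cast_nonneg (α := ℝ) K)
    show _ * (famVal F _ * _) ≤ _
    simp only [famVal] at *
    nlinarith

/-- The mean of a nonnegative functional, from a bound on every tree with at most four
children. -/
theorem meanPot_le_of_atMostFour {lam : ℝ} {F : (Fin 3 → ℝ) → ℝ} {ν : PMF ℕ}
    (hν : ∀ k, ν k ≠ 0 → k ≤ 4) {n : ℕ} {b : ℝ}
    (h : ∀ T : Tree n, AtMostFour n T → famVal F (lik 3 lam n T) ≤ b) :
    meanPot 3 lam F ν n ≤ ENNReal.ofReal b := by
  have hsupp : ∀ (m : ℕ) (T : Tree m), treeProb ν m T ≠ 0 → AtMostFour m T := by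
    intro m
    induction m with
    | zero => intro T _; trivial
    | succ m ih =>
      intro T hT
      simp only [treeProb, ne_eq, mul_eq_zero, not_or, Finset.prod_eq_zero_iff,
        Finset.mem_univ, true_and, not_exists] at hT
      exact ⟨hν _ hT.1, fun a => ih _ (hT.2 a)⟩
  unfold meanPot
  refine (ENNReal.tsum_le_tsum (g := fun T => treeProb ν n T * ENNReal.ofReal b) fun T => ?_).trans ?_
  · rcases eq_or_ne (treeProb ν n T) 0 with h0 | h0
    · simp [h0]
    · exact mul_le_mul_right (ENNReal.ofReal_le_ofReal (h T (hsupp n T h0))) _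
  · rw [ENNReal.tsum_mul_right, tsum_treeProb, one_mul]

end Vale.Agent.P154.Upgrade
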